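import Mathlib

/-!
Bang's plank theorem in a finite dimensional real inner product space.
-/

namespace Vale.Agent.P243

open Set Finset
open scoped RealInnerProductSpace

variable {E : Type*} [NormedAddCommGroup E] [InnerProductSpace ℝ E]

/-- The set C has width at least W in every direction. -/
def WideAtLeast (C : Set E) (W : ℝ) : Prop :=
  ∀ f : E, ∃ x ∈ C, ∃ y ∈ C, W * ‖f‖ ≤ ⟪f, x⟫ - ⟪f, y⟫

lemma WideAtLeast.mono {C : Set E} {W W' : ℝ} (h : WideAtLeast C W) (hW : W' ≤ W) :
    WideAtLeast C W' := fun f => by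
  obtain ⟨x, hx, y, hy, hxy⟩ := h f
  exact ⟨x, hx, y, hy, (mul_le_mul_of_nonneg_right hW (norm_nonneg f)).trans hxy⟩

/-- A body of width at least W has a chord of every length below W in every direction. -/
lemma exists_chord [CompleteSpace E] {C : Set E} (hC : IsCompact C) (hc : Convex ℝ C) {W : ℝ}
    (hwide : WideAtLeast C W) {v : E} (hv : ‖v‖ < W) : ∃ p ∈ C, p + v ∈ C := by
  by_contra h
  push Not at h
  set C' := (fun x => x + v) '' C with hC'
  have hdis : Disjoint C' C := by
    rw [Set.disjoint_left]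
    rintro _ ⟨x, hx, rfl⟩ hxC
    exact h x hx hxC
  obtain ⟨f, s, t, h1, hst, h2⟩ := geometric_hahn_banach_compact_closed
    (hc.translate_preimage_left (-v) |> fun _ => (by
      simpa [C', add_comm] using hc.translate v : Convex ℝ C'))
    (hC.image (continuous_id.add continuous_const)) hc hC.isClosed hdis
  set g := (InnerProductSpace.toDual ℝ E).symm f with hg
  have hgf : ∀ x, ⟪g, x⟫ = f x := fun x => InnerProductSpace.toDual_symm_apply
  obtain ⟨x, hx, y, hy, hxy⟩ := hwide g
  have hx' : f (x + v) < s := h1 _ ⟨x, hx, rfl⟩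
  have hy' : t < f y := h2 y hy
  rw [hgf, hgf] at hxy
  rw [map_add] at hx'
  have hfv : -(‖g‖ * ‖v‖) ≤ f v := by
    rw [← hgf]; exact neg_le_of_abs_le (abs_real_inner_le_norm g v)
  have := mul_le_mul_of_nonneg_right hv.le (norm_nonneg g)
  linarith

/-- Intersecting the two translates by ± v costs at most 2 ‖v‖ of width. -/
lemma exists_middle [CompleteSpace E] {C : Set E} (hC : IsCompact C) (hc : Convex ℝ C) {W : ℝ}
    (hwide : WideAtLeast C W) {v : E} (hv : 2 * ‖v‖ < W) :
    IsCompact {z | z + v ∈ C ∧ z - v ∈ C} ∧ Convex ℝ {z | z + v ∈ C ∧ z - v ∈ C} ∧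
      ∀ L, 2 * ‖v‖ < L → L < W → WideAtLeast {z | z + v ∈ C ∧ z - v ∈ C} (W - 2 * ‖v‖ * W / L) := by
  have heq : {z | z + v ∈ C ∧ z - v ∈ C} = (fun x => x - v) '' C ∩ (fun x => x + v) '' C := by
    ext z
    constructor
    · rintro ⟨h1, h2⟩
      exact ⟨⟨z + v, h1, by simp⟩, ⟨z - v, h2, by simp⟩⟩
    · rintro ⟨⟨x, hx, rfl⟩, ⟨y, hy, hyx⟩⟩
      refine ⟨by simpa using hx, ?_⟩
      dsimp only at hyx ⊢
      rw [← hyx]; simpa using hy
  refine ⟨?_, ?_, fun L hL hLW f => ?_⟩
  · rw [heq]
    exact (hC.image (continuous_id.sub continuous_const)).inter_right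
      (hC.image (continuous_id.add continuous_const)).isClosed
  · intro a ha b hb r s hr hs hrs
    constructor
    · have := hc ha.1 hb.1 hr hs hrs
      convert this using 1
      rw [smul_add, smul_add, show r • a + r • v + (s • b + s • v) = r • a + s • b + (r + s) • v by
        rw [add_smul]; abel, hrs, one_smul]
    · have := hc ha.2 hb.2 hr hs hrs
      convert this using 1
      rw [smul_sub, smul_sub, show r • a - r • v + (s • b - s • v) = r • a + s • b - (r + s) • v by
        rw [add_smul]; abel, hrs, one_smul]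
  · have hL0 : 0 < L := lt_of_le_of_lt (by positivity) hL
    obtain ⟨x, hx, y, hy, hxy⟩ := hwide f
    rcases eq_or_ne v 0 with rfl | hv0
    · refine ⟨x, ⟨by simpa using hx, by simpa using hx⟩, y, ⟨by simpa using hy, by simpa using hy⟩, ?_⟩
      simpa using hxy
    have hvn : 0 < ‖v‖ := norm_pos_iff.2 hv0
    set l := 2 * ‖v‖ / L with hl
    have hl0 : 0 ≤ l := by positivity
    have hl1 : l ≤ 1 := (div_le_one hL0).2 hL.le
    obtain ⟨p, hp, hq⟩ := exists_chord hC hc hwide (v := (L / ‖v‖) • v) (by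
      rw [norm_smul, Real.norm_of_nonneg (by positivity), div_mul_cancel₀ _ hvn.ne']; exact hLW)
    have hlv : l • ((L / ‖v‖) • v) = v + v := by
      rw [smul_smul, show l * (L / ‖v‖) = 2 by rw [hl]; field_simp, two_smul]
    have key : ∀ z ∈ C, (1 - l) • z + l • p + v ∈ {z | z + v ∈ C ∧ z - v ∈ C} := by
      intro z hz
      constructor
      · have := hc hz hq (sub_nonneg.2 hl1) hl0 (by ring)
        rw [smul_add, hlv] at this
        simpa [add_assoc] using this
      · have := hc hz hp (sub_nonneg.2 hl1) hl0 (by ring)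
        simpa using this
    refine ⟨_, key x hx, _, key y hy, ?_⟩
    simp only [inner_add_right, inner_smul_right]
    have h2 := mul_le_mul_of_nonneg_left hxy (sub_nonneg.2 hl1)
    calc (W - 2 * ‖v‖ * W / L) * ‖f‖ = (1 - l) * (W * ‖f‖) := by rw [hl]; ring
      _ ≤ _ := by linarith

/-- A point all of whose sign combinations stay in C. -/
lemma exists_all_signs [CompleteSpace E] {ι : Type*} (s : Finset ι) (v : ι → E) :
    ∀ {C : Set E} {W : ℝ}, IsCompact C → Convex ℝ C → WideAtLeast C W →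
      2 * ∑ i ∈ s, ‖v i‖ < W →
      ∃ y, ∀ ε : ι → Bool, y + ∑ i ∈ s, (if ε i then v i else -v i) ∈ C := by
  classical
  induction s using Finset.induction_on with
  | empty =>
    intro C W _ _ hwide _
    obtain ⟨x, hx, -⟩ := hwide 0
    exact ⟨x, fun _ => by simpa using hx⟩
  | insert a s ha ih =>
    intro C W hC hc hwide hsum
    rw [sum_insert ha, mul_add] at hsum
    set S := 2 * ∑ i ∈ s, ‖v i‖ with hS
    have hS0 : 0 ≤ S := by positivity
    have hva : 2 * ‖v a‖ < W := by linarith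
    obtain ⟨h1, h2, h3⟩ := exists_middle hC hc hwide hva
    have hWS : 0 < W - S := by linarith [norm_nonneg (v a)]
    -- choose L < W close enough to W
    have hW : 0 < W := lt_of_le_of_lt (by positivity) hva
    obtain ⟨L, hL1, hL2⟩ : ∃ L, max (2 * ‖v a‖) (2 * ‖v a‖ * W / (W - S)) < L ∧ L < W := by
      apply _root_.exists_between
      refine max_lt hva ?_
      rw [div_lt_iff₀ hWS]
      nlinarith
    rw [max_lt_iff] at hL1
    have hL0 : 0 < L := lt_of_le_of_lt (by positivity) hL1.1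
    have hkey : S < W - 2 * ‖v a‖ * W / L := by
      have := hL1.2
      rw [div_lt_iff₀ hWS] at this
      rw [lt_sub_iff_add_lt, ← lt_sub_iff_add_lt', div_lt_iff₀ hL0]
      linarith
    obtain ⟨y, hy⟩ := ih h1 h2 (h3 L hL1.1 hL2) hkey
    refine ⟨y, fun ε => ?_⟩
    rw [sum_insert ha]
    obtain ⟨hp, hm⟩ := hy ε
    split_ifs
    · rw [show y + (v a + ∑ i ∈ s, (if ε i then v i else -v i))
        = y + ∑ i ∈ s, (if ε i then v i else -v i) + v a by abel]
      exact hp
    · rw [show y + (-v a + ∑ i ∈ s, (if ε i then v i else -v i))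
        = y + ∑ i ∈ s, (if ε i then v i else -v i) - v a by abel]
      exact hm

/-- Bang's lemma: some sign combination avoids all planks. -/
lemma exists_sign_outside {ι : Type*} [Fintype ι] (n : ι → E) (hn : ∀ i, ‖n i‖ = 1)
    (c r : ι → ℝ) (hr : ∀ i, 0 < r i) (y : E) :
    ∃ ε : ι → Bool, ∀ j,
      r j ≤ |⟪n j, y + ∑ i, (if ε i then r i • n i else -(r i • n i))⟫ - c j| := by
  classical
  let σ : Bool → ℝ := fun b => if b then 1 else -1
  let S : (ι → Bool) → E := fun ε => ∑ i, σ (ε i) • (r i • n i)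
  let F : (ι → Bool) → ℝ := fun ε =>
    ‖S ε‖ ^ 2 + 2 * ∑ i, σ (ε i) * r i * (⟪n i, y⟫ - c i)
  obtain ⟨ε, -, hmax⟩ := exists_max_image (Finset.univ : Finset (ι → Bool)) F univ_nonempty
  refine ⟨ε, fun j => ?_⟩
  have hS : ∑ i, (if ε i then r i • n i else -(r i • n i)) = S ε :=
    sum_congr rfl fun i _ => by cases ε i <;> simp [σ]
  rw [hS]
  set ε' := Function.update ε j (!ε j) with hε'
  have hσ : σ (!ε j) = -σ (ε j) := by cases ε j <;> simp [σ]
  have hsq : σ (ε j) ^ 2 = 1 := by cases ε j <;> simp [σ]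
  have hS' : S ε' = S ε + (-2 * σ (ε j) * r j) • n j := by
    simp only [S]
    rw [← sub_eq_iff_eq_add', ← sum_sub_distrib, sum_eq_single j]
    · simp only [ε', Function.update_self, hσ, ← sub_smul, smul_smul]; congr 1; ring
    · intro i _ hi; simp [ε', Function.update_of_ne hi]
    · simp
  have hL' : ∑ i, σ (ε' i) * r i * (⟪n i, y⟫ - c i)
      = ∑ i, σ (ε i) * r i * (⟪n i, y⟫ - c i) + -2 * σ (ε j) * r j * (⟪n j, y⟫ - c j) := by
    rw [← sub_eq_iff_eq_add', ← sum_sub_distrib, sum_eq_single j]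
    · simp only [ε', Function.update_self, hσ]; ring
    · intro i _ hi; simp [ε', Function.update_of_ne hi]
    · simp
  have h := hmax ε' (mem_univ _)
  simp only [F] at h
  rw [hS', hL', norm_add_sq_real, inner_smul_right, norm_smul, hn, mul_one, Real.norm_eq_abs,
    sq_abs, real_inner_comm] at h
  rw [inner_add_right]
  set T := ⟪n j, S ε⟫
  set D := ⟪n j, y⟫ - c j
  have h2 : 0 ≤ 4 * r j * (σ (ε j) * (T + D) - r j) := by nlinarith
  have h3 : r j ≤ σ (ε j) * (T + D) := by nlinarith [hr j]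
  have h4 : σ (ε j) * (T + D) ≤ |T + D| := by
    refine (le_abs_self _).trans (le_of_eq ?_)
    rw [abs_mul]
    cases ε j <;> simp [σ]
  calc r j ≤ |T + D| := h3.trans h4
    _ = _ := by congr 1; simp only [D]; ring

/-- Bang's plank theorem. -/
theorem bang_plank [CompleteSpace E] {ι : Type*} [Fintype ι] {C : Set E} (hC : IsCompact C)
    (hc : Convex ℝ C) {W : ℝ} (hwide : WideAtLeast C W) (n : ι → E) (hn : ∀ i, ‖n i‖ = 1)
    (c r : ι → ℝ) (hr : ∀ i, 0 ≤ r i) (hcov : ∀ x ∈ C, ∃ i, |⟪n i, x⟫ - c i| ≤ r i) :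
    W ≤ 2 * ∑ i, r i := by
  by_contra h
  push Not at h
  obtain ⟨η, hη, hη'⟩ : ∃ η : ℝ, 0 < η ∧ 2 * ∑ i, (r i + η) < W := by
    refine ⟨(W - 2 * ∑ i, r i) / (4 * ((Fintype.card ι : ℝ) + 1)),
      div_pos (by linarith) (by positivity), ?_⟩
    rw [sum_add_distrib, sum_const, Finset.card_univ, nsmul_eq_mul]
    have hk : (Fintype.card ι : ℝ) * ((W - 2 * ∑ i, r i) / (4 * ((Fintype.card ι : ℝ) + 1)))
        ≤ (W - 2 * ∑ i, r i) / 4 := by
      rw [← mul_div_assoc, div_le_div_iff₀ (by positivity) (by norm_num)]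
      nlinarith
    linarith
  have hpos : ∀ i, 0 < r i + η := fun i => by linarith [hr i]
  obtain ⟨y, hy⟩ := exists_all_signs Finset.univ (fun i => (r i + η) • n i) hC hc hwide (by
    simpa [norm_smul, hn, abs_of_pos (hpos _)] using hη')
  obtain ⟨ε, hε⟩ := exists_sign_outside n hn c (fun i => r i + η) hpos y
  obtain ⟨i, hi⟩ := hcov _ (hy ε)
  linarith [hε i]

end Vale.Agent.P243
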