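import Mathlib
import Vale.Agent.P243.Bang

/-!
Coverings of a planar section by preimages of open sets of the line.
-/

namespace Vale.Agent.P243

open Set MeasureTheory
open scoped RealInnerProductSpace ENNReal

/-- A component of an open set of finite measure lies in an interval of that length. -/
lemma component_subset_interval {J : Set ℝ} (hJ : IsPreconnected J) (hne : J.Nonempty)
    (hfin : volume J ≠ ∞) :
    ∃ c r : ℝ, 0 ≤ r ∧ 2 * r ≤ (volume J).toReal ∧ ∀ x ∈ J, |x - c| ≤ r := by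
  have hd : ∀ x ∈ J, ∀ y ∈ J, y - x ≤ (volume J).toReal := by
    intro x hx y hy
    rcases le_total x y with h | h
    · have h2 : volume (Icc x y) ≤ volume J := measure_mono (hJ.Icc_subset hx hy)
      rw [Real.volume_Icc] at h2
      exact (ENNReal.ofReal_le_iff_le_toReal hfin).1 h2
    · linarith [ENNReal.toReal_nonneg (a := volume J)]
  obtain ⟨z, hz⟩ := hne
  have hb : BddAbove J := ⟨z + (volume J).toReal, fun y hy => by linarith [hd z hz y hy]⟩
  have hb' : BddBelow J := ⟨z - (volume J).toReal, fun x hx => by linarith [hd x hx z hz]⟩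
  refine ⟨(sInf J + sSup J) / 2, (sSup J - sInf J) / 2, ?_, ?_, fun x hx => ?_⟩
  · linarith [csInf_le hb' hz, le_csSup hb hz]
  · have h1 : sSup J ≤ sInf J + (volume J).toReal := csSup_le ⟨z, hz⟩ fun y hy => by
      have : y - (volume J).toReal ≤ sInf J := le_csInf ⟨z, hz⟩ fun x hx => by linarith [hd x hx y hy]
      linarith
    linarith
  · rw [abs_le]
    constructor <;> linarith [csInf_le hb' hx, le_csSup hb hx]

/-- Bang's theorem for open plank families. -/
lemma width_le_open_cover {E : Type*} [NormedAddCommGroup E] [InnerProductSpace ℝ E]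
    [CompleteSpace E] {ι : Type*} [Fintype ι] {C : Set E} (hC : IsCompact C) (hc : Convex ℝ C)
    {W : ℝ} (hwide : WideAtLeast C W) (n : ι → E) (hn : ∀ i, ‖n i‖ = 1) (U : ι → Set ℝ)
    (hU : ∀ i, IsOpen (U i)) (hcov : ∀ x ∈ C, ∃ i, ⟪n i, x⟫ ∈ U i) :
    ENNReal.ofReal W ≤ ∑ i, volume (U i) := by
  classical
  by_cases hinf : ∑ i, volume (U i) = ∞
  · rw [hinf]; exact le_top
  have hfin : ∀ i, volume (U i) ≠ ∞ := fun i h =>
    hinf (ENNReal.sum_eq_top.2 ⟨i, Finset.mem_univ i, h⟩)
  let O : ι × ℝ → Set E := fun p => (fun x => ⟪n p.1, x⟫) ⁻¹' connectedComponentIn (U p.1) p.2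
  have hO : ∀ p, IsOpen (O p) := fun p =>
    (hU p.1).connectedComponentIn.preimage (continuous_const.inner continuous_id)
  obtain ⟨t, ht⟩ := hC.elim_finite_subcover O hO fun x hx => by
    obtain ⟨i, hi⟩ := hcov x hx
    exact mem_iUnion.2 ⟨(i, ⟪n i, x⟫), mem_connectedComponentIn hi⟩
  let P : Finset (ι × Set ℝ) :=
    (t.image fun p => (p.1, connectedComponentIn (U p.1) p.2)).filter fun q => q.2.Nonempty
  have hP : ∀ q ∈ P, ∃ z, q.2 = connectedComponentIn (U q.1) z ∧ q.2.Nonempty := by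
    intro q hq
    simp only [P, Finset.mem_filter, Finset.mem_image] at hq
    obtain ⟨⟨p, -, rfl⟩, hne⟩ := hq
    exact ⟨p.2, rfl, hne⟩
  have hsub : ∀ q ∈ P, q.2 ⊆ U q.1 := fun q hq => by
    obtain ⟨z, hz, -⟩ := hP q hq; rw [hz]; exact connectedComponentIn_subset _ _
  have hd : ∀ q : {q // q ∈ P}, ∃ c r : ℝ, 0 ≤ r ∧ 2 * r ≤ (volume q.1.2).toReal ∧
      ∀ x ∈ q.1.2, |x - c| ≤ r := by
    rintro ⟨q, hq⟩
    obtain ⟨z, hz, hne⟩ := hP q hq
    exact component_subset_interval (by rw [hz]; exact isPreconnected_connectedComponentIn) hne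
      (ne_top_of_le_ne_top (hfin q.1) (measure_mono (hsub q hq)))
  choose c r hr0 hr hmem using hd
  have hB := bang_plank hC hc hwide (fun q : {q // q ∈ P} => n q.1.1) (fun q => hn _) c r hr0 (by
    intro x hx
    obtain ⟨p, hp, hxp⟩ := mem_iUnion₂.1 (ht hx)
    have hq : (p.1, connectedComponentIn (U p.1) p.2) ∈ P := by
      simp only [P, Finset.mem_filter, Finset.mem_image]
      exact ⟨⟨p, hp, rfl⟩, ⟨_, hxp⟩⟩
    exact ⟨⟨_, hq⟩, hmem ⟨_, hq⟩ _ hxp⟩)
  have hlen : ENNReal.ofReal W ≤ ∑ q ∈ P, volume q.2 := by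
    refine (ENNReal.ofReal_le_ofReal hB).trans ?_
    rw [Finset.mul_sum, ENNReal.ofReal_sum_of_nonneg (fun q _ => by linarith [hr0 q]),
      ← P.sum_coe_sort (fun q => volume q.2)]
    refine Finset.sum_le_sum fun q _ => (ENNReal.ofReal_le_ofReal (hr q)).trans ?_
    exact ENNReal.ofReal_toReal_le
  refine hlen.trans ?_
  rw [← Finset.sum_fiberwise P (fun q => q.1)]
  refine Finset.sum_le_sum fun i _ => ?_
  have hdis : ((P.filter fun q => q.1 = i : Finset (ι × Set ℝ)) : Set (ι × Set ℝ)).Pairwise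
      (Function.onFun Disjoint fun q => q.2) := by
    intro q hq q' hq' hne
    simp only [Finset.coe_filter, mem_setOf_eq] at hq hq'
    show Disjoint q.2 q'.2
    rw [Set.disjoint_left]
    intro x hx hx'
    apply hne
    obtain ⟨z, hz, -⟩ := hP q hq.1
    obtain ⟨z', hz', -⟩ := hP q' hq'.1
    rw [hz, hq.2] at hx
    rw [hz', hq'.2] at hx'
    refine Prod.ext (hq.2.trans hq'.2.symm) ?_
    rw [hz, hz', hq.2, hq'.2, connectedComponentIn_eq hx, connectedComponentIn_eq hx']
  rw [← measure_biUnion_finset hdis fun q hq => by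
    obtain ⟨z, hz, -⟩ := hP q (Finset.mem_filter.1 hq).1
    rw [hz]; exact (hU q.1).connectedComponentIn.measurableSet]
  refine measure_mono (iUnion₂_subset fun q hq => ?_)
  obtain ⟨h1, h2⟩ := Finset.mem_filter.1 hq
  rw [← h2]; exact hsub q h1

end Vale.Agent.P243
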