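import Mathlib

/-!
Names for the quantities of the cylinder covering problem.
-/

namespace Vale.Agent.P243

open MeasureTheory
open scoped ENNReal

/-- Three dimensional Euclidean space. -/
abbrev R3 := EuclideanSpace ℝ (Fin 3)

variable {E : Type} [NormedAddCommGroup E] [InnerProductSpace ℝ E]

/-- The hyperplane orthogonal to u. -/
noncomputable def orthPlane (u : E) : Submodule ℝ E := (ℝ ∙ u)ᗮ

variable [FiniteDimensional ℝ E] [MeasurableSpace E] [BorelSpace E]

/-- The Lebesgue (outer) measure of a subset of a subspace. -/
noncomputable def area (P : Submodule ℝ E) (S : Set ↥P) : ℝ≥0∞ := volume S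

/-- The area of the orthogonal projection of a set onto a subspace. -/
noncomputable def projArea (P : Submodule ℝ E) (K : Set E) : ℝ≥0∞ :=
  area P (P.orthogonalProjectionOnto '' K)

/-- The area of the orthogonal projection of a set onto the plane orthogonal to u. -/
noncomputable def shadowArea (u : E) (K : Set E) : ℝ≥0∞ := projArea (orthPlane u) K

/-- The set of points whose projection onto a subspace lies in B. -/
noncomputable def cylinderOver (P : Submodule ℝ E) (B : Set ↥P) : Set E := P.orthogonalProjectionOnto ⁻¹' B

end Vale.Agent.P243
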