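import Mathlib

/-!
Profiles of planar convex bodies, and coordinates on the plane orthogonal to a direction.
-/

namespace Vale.Agent.P243

open Set MeasureTheory
open scoped RealInnerProductSpace ENNReal

/-- The tent 2 min(t - a, b - t) / (b - a)². -/
noncomputable def tent (a b t : ℝ) : ℝ := 2 * min (t - a) (b - t) / (b - a) ^ 2

lemma tent_nonneg {a b t : ℝ} (ht : t ∈ Icc a b) : 0 ≤ tent a b t :=
  div_nonneg (mul_nonneg (by norm_num) (le_min (by linarith [ht.1]) (by linarith [ht.2])))
    (sq_nonneg _)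

lemma tent_continuous (a b : ℝ) : Continuous (tent a b) := by unfold tent; fun_prop

lemma lintegral_tent {a b : ℝ} (hab : a < b) :
    ∫⁻ t in Icc a b, ENNReal.ofReal (tent a b t) = ENNReal.ofReal (1/2) := by
  rw [← ofReal_integral_eq_lintegral_ofReal
    ((tent_continuous a b).continuousOn.integrableOn_compact isCompact_Icc)
    ((ae_restrict_iff' measurableSet_Icc).2 (ae_of_all _ fun t ht => tent_nonneg ht))]
  congr 1
  rw [integral_Icc_eq_integral_Ioc, ← intervalIntegral.integral_of_le hab.le]
  have hb : 0 < b - a := by linarith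
  rw [← intervalIntegral.integral_add_adjacent_intervals (b := (a + b) / 2)
    ((tent_continuous a b).intervalIntegrable _ _) ((tent_continuous a b).intervalIntegrable _ _)]
  have h1 : ∫ t in a..(a + b) / 2, tent a b t = ∫ t in a..(a + b) / 2, (2 / (b - a) ^ 2) * (t - a) := by
    refine intervalIntegral.integral_congr fun t ht => ?_
    rw [uIcc_of_le (by linarith)] at ht
    simp only [tent, min_eq_left (by linarith [ht.2] : t - a ≤ b - t)]
    ring
  have h2 : ∫ t in (a + b) / 2..b, tent a b t = ∫ t in (a + b) / 2..b, (2 / (b - a) ^ 2) * (b - t) := by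
    refine intervalIntegral.integral_congr fun t ht => ?_
    rw [uIcc_of_le (by linarith)] at ht
    simp only [tent, min_eq_right (by linarith [ht.1] : b - t ≤ t - a)]
    ring
  rw [h1, h2, intervalIntegral.integral_const_mul, intervalIntegral.integral_const_mul,
    intervalIntegral.integral_comp_sub_right (fun x => x) a,
    intervalIntegral.integral_comp_sub_left (fun x => x) b, integral_id, integral_id]
  field_simp
  ring

/-- The fibre over t of a planar set. -/
def fibre (C : Set (ℝ × ℝ)) (t : ℝ) : Set ℝ := Prod.mk t ⁻¹' C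

lemma fibre_compact {C : Set (ℝ × ℝ)} (hC : IsCompact C) (t : ℝ) : IsCompact (fibre C t) :=
  IsCompact.of_isClosed_subset (hC.image continuous_snd)
    (hC.isClosed.preimage (Continuous.prodMk_right t)) fun x hx => ⟨(t, x), hx, rfl⟩

lemma fibre_convex {C : Set (ℝ × ℝ)} (hc : Convex ℝ C) (t : ℝ) : Convex ℝ (fibre C t) := by
  intro x hx y hy r s hr hs hrs
  have := hc hx hy hr hs hrs
  simp only [fibre, mem_preimage]
  rw [show r • (t, x) + s • (t, y) = (t, r • x + s • y) by
    simp [Prod.smul_mk, ← add_mul, hrs]] at this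
  exact this

/-- A compact convex subset of the line is an interval. -/
lemma fibre_eq_Icc {F : Set ℝ} (hF : IsCompact F) (hc : Convex ℝ F) (hne : F.Nonempty) :
    F = Icc (sInf F) (sSup F) :=
  eq_Icc_of_connected_compact ⟨hne, hc.isPreconnected⟩ hF

/-- Concavity: the fibre at t is at least the tent times the area. -/
lemma fibre_ge_tent {C : Set (ℝ × ℝ)} (hC : IsCompact C) (hc : Convex ℝ C) {a b : ℝ}
    (hab : a < b) (himg : Prod.fst '' C = Icc a b) {t : ℝ} (ht : t ∈ Icc a b) :
    ENNReal.ofReal (tent a b t) * volume C ≤ volume (fibre C t) := by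
  have hne : ∀ s ∈ Icc a b, (fibre C s).Nonempty := fun s hs => by
    rw [← himg] at hs
    obtain ⟨⟨x, y⟩, hxy, rfl⟩ := hs
    exact ⟨y, hxy⟩
  have hfin : ∀ s, volume (fibre C s) ≠ ∞ := fun s => (fibre_compact hC s).measure_ne_top
  set g : ℝ → ℝ := fun s => (volume (fibre C s)).toReal with hg
  have hlen : ∀ s ∈ Icc a b, g s = sSup (fibre C s) - sInf (fibre C s) := fun s hs => by
    have h := fibre_eq_Icc (fibre_compact hC s) (fibre_convex hc s) (hne s hs)
    simp only [g]
    rw [congrArg volume h, Real.volume_Icc, ENNReal.toReal_ofReal]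
    linarith [le_csSup (fibre_compact hC s).bddAbove ((fibre_compact hC s).sInf_mem (hne s hs))]
  have hcomb : ∀ s ∈ Icc a b, ∀ s' ∈ Icc a b, ∀ r q : ℝ, 0 ≤ r → 0 ≤ q → r + q = 1 →
      r * g s + q * g s' ≤ g (r * s + q * s') := by
    intro s hs s' hs' r q hr hq hrq
    have hm : r * s + q * s' ∈ Icc a b := convex_Icc a b hs hs' hr hq hrq
    rw [hlen s hs, hlen s' hs', hlen _ hm]
    have key : ∀ x ∈ fibre C s, ∀ x' ∈ fibre C s', r * x + q * x' ∈ fibre C (r * s + q * s') :=
      fun x hx x' hx' => hc hx hx' hr hq hrq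
    have k1 := key _ ((fibre_compact hC s).sSup_mem (hne s hs)) _
      ((fibre_compact hC s').sSup_mem (hne s' hs'))
    have k2 := key _ ((fibre_compact hC s).sInf_mem (hne s hs)) _
      ((fibre_compact hC s').sInf_mem (hne s' hs'))
    have := le_csSup (fibre_compact hC _).bddAbove k1
    have := csInf_le (fibre_compact hC _).bddBelow k2
    linarith
  have hg0 : ∀ s, 0 ≤ g s := fun s => ENNReal.toReal_nonneg
  set μ := (a + b) / 2 with hμ
  have hμI : μ ∈ Icc a b := ⟨by rw [hμ]; linarith, by rw [hμ]; linarith⟩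
  -- the area is at most the length times the middle fibre
  have harea : volume C ≤ ENNReal.ofReal ((b - a) * g μ) := by
    have hslice : volume C = ∫⁻ s in Icc a b, volume (fibre C s) := by
      rw [Measure.volume_eq_prod, Measure.prod_apply hC.measurableSet]
      refine (setLIntegral_eq_of_support_subset fun s hs => ?_).symm
      by_contra hcon
      apply hs
      show volume (fibre C s) = 0
      convert measure_empty (μ := (volume : Measure ℝ))
      refine eq_empty_of_forall_notMem fun x hx => hcon ?_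
      rw [← himg]; exact ⟨(s, x), hx, rfl⟩
    set F : ℝ → ℝ≥0∞ := fun s => (Icc a b).indicator (fun s => volume (fibre C s)) s with hF
    have hFm : Measurable F :=
      (measurable_measure_prodMk_left hC.measurableSet).indicator measurableSet_Icc
    have h2 : volume C + volume C ≤ ENNReal.ofReal (2 * g μ) * ENNReal.ofReal (b - a) := by
      have hrefl : ∫⁻ s, F (a + b - s) = ∫⁻ s, F s :=
        lintegral_sub_left_eq_self F (a + b)
      have hC' : volume C = ∫⁻ s, F s := by rw [hslice, lintegral_indicator measurableSet_Icc]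
      calc volume C + volume C = ∫⁻ s, (F s + F (a + b - s)) := by
            rw [lintegral_add_left hFm, hrefl, hC']
        _ ≤ ∫⁻ s, (Icc a b).indicator (fun _ => ENNReal.ofReal (2 * g μ)) s := by
            refine lintegral_mono fun s => ?_
            by_cases hs : s ∈ Icc a b
            · have hs' : a + b - s ∈ Icc a b := ⟨by linarith [hs.2], by linarith [hs.1]⟩
              simp only [F, indicator_of_mem hs, indicator_of_mem hs']
              rw [← ENNReal.ofReal_toReal (hfin s), ← ENNReal.ofReal_toReal (hfin (a + b - s)),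
                ← ENNReal.ofReal_add (hg0 _) (hg0 _)]
              refine ENNReal.ofReal_le_ofReal ?_
              have := hcomb s hs _ hs' (1/2) (1/2) (by norm_num) (by norm_num) (by norm_num)
              rw [show (1/2 : ℝ) * s + 1/2 * (a + b - s) = μ by rw [hμ]; ring] at this
              linarith
            · have hs' : a + b - s ∉ Icc a b := fun h =>
                hs ⟨by linarith [h.2], by linarith [h.1]⟩
              simp [F, indicator_of_notMem hs, indicator_of_notMem hs']
        _ = _ := by rw [lintegral_indicator_const measurableSet_Icc, Real.volume_Icc]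
    have hfinC : volume C ≠ ∞ := hC.measure_ne_top
    rw [← ENNReal.ofReal_mul (by linarith [hg0 μ])] at h2
    rw [← ENNReal.ofReal_toReal hfinC] at h2 ⊢
    rw [← ENNReal.ofReal_add ENNReal.toReal_nonneg ENNReal.toReal_nonneg,
      ENNReal.ofReal_le_ofReal_iff (by have := hg0 μ; nlinarith)] at h2
    exact ENNReal.ofReal_le_ofReal (by linarith)
  -- the middle fibre is controlled by the fibre at t
  have htent : tent a b t * ((b - a) * g μ) ≤ g t := by
    have hb : 0 < b - a := by linarith
    rcases le_total t μ with h | h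
    · have hl : 0 ≤ 2 * (t - a) / (b - a) := div_nonneg (by linarith [ht.1]) hb.le
      have hl1 : 2 * (t - a) / (b - a) ≤ 1 := by rw [div_le_one hb]; rw [hμ] at h; linarith
      have := hcomb a ⟨le_rfl, hab.le⟩ μ hμI (1 - 2 * (t - a) / (b - a)) _ (by linarith) hl (by ring)
      rw [show (1 - 2 * (t - a) / (b - a)) * a + 2 * (t - a) / (b - a) * μ = t by
        rw [hμ]; field_simp; ring] at this
      have h0 := mul_nonneg (sub_nonneg.2 hl1) (hg0 a)
      simp only [tent, min_eq_left (by rw [hμ] at h; linarith : t - a ≤ b - t)]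
      calc 2 * (t - a) / (b - a) ^ 2 * ((b - a) * g μ) = 2 * (t - a) / (b - a) * g μ := by
            field_simp
        _ ≤ g t := by linarith
    · have hl : 0 ≤ 2 * (b - t) / (b - a) := div_nonneg (by linarith [ht.2]) hb.le
      have hl1 : 2 * (b - t) / (b - a) ≤ 1 := by rw [div_le_one hb]; rw [hμ] at h; linarith
      have := hcomb b ⟨hab.le, le_rfl⟩ μ hμI (1 - 2 * (b - t) / (b - a)) _ (by linarith) hl (by ring)
      rw [show (1 - 2 * (b - t) / (b - a)) * b + 2 * (b - t) / (b - a) * μ = t by
        rw [hμ]; field_simp; ring] at this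
      have h0 := mul_nonneg (sub_nonneg.2 hl1) (hg0 b)
      simp only [tent, min_eq_right (by rw [hμ] at h; linarith : b - t ≤ t - a)]
      calc 2 * (b - t) / (b - a) ^ 2 * ((b - a) * g μ) = 2 * (b - t) / (b - a) * g μ := by
            field_simp
        _ ≤ g t := by linarith
  calc ENNReal.ofReal (tent a b t) * volume C
      ≤ ENNReal.ofReal (tent a b t) * ENNReal.ofReal ((b - a) * g μ) := by gcongr
    _ = ENNReal.ofReal (tent a b t * ((b - a) * g μ)) :=
        (ENNReal.ofReal_mul (tent_nonneg ht)).symm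
    _ ≤ ENNReal.ofReal (g t) := ENNReal.ofReal_le_ofReal htent
    _ = volume (fibre C t) := ENNReal.ofReal_toReal (hfin t)

variable {E : Type*} [NormedAddCommGroup E] [InnerProductSpace ℝ E] [FiniteDimensional ℝ E]
  [MeasurableSpace E] [BorelSpace E]

/-- Coordinates on the plane orthogonal to u. -/
lemma plane_coords (hdim : Module.finrank ℝ E = 3) {u e n : E} (hu : u ≠ 0) (he : ‖e‖ = 1)
    (hn : ‖n‖ = 1) (hen : ⟪e, n⟫ = 0) (heu : ⟪e, u⟫ = 0) (hnu : ⟪n, u⟫ = 0) :
    ∃ ψ : ↥((ℝ ∙ u)ᗮ) ≃ₜ ℝ × ℝ, MeasurePreserving ψ ∧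
      ∀ x : E, ψ ((ℝ ∙ u)ᗮ.orthogonalProjectionOnto x) = (⟪e, x⟫, ⟪n, x⟫) := by
  have : Fact (Module.finrank ℝ E = 2 + 1) := ⟨hdim⟩
  have hd : Module.finrank ℝ ↥((ℝ ∙ u)ᗮ) = 2 := Submodule.finrank_orthogonal_span_singleton hu
  have hem : e ∈ (ℝ ∙ u)ᗮ := Submodule.mem_orthogonal_singleton_iff_inner_left.2 heu
  have hnm : n ∈ (ℝ ∙ u)ᗮ := Submodule.mem_orthogonal_singleton_iff_inner_left.2 hnu
  let v : Fin 2 → ↥((ℝ ∙ u)ᗮ) := ![⟨e, hem⟩, ⟨n, hnm⟩]
  have hv : Orthonormal ℝ v := by
    constructor
    · intro i; fin_cases i <;> simp [v, he, hn]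
    · intro i j hij
      fin_cases i <;> fin_cases j <;>
        first | (exact absurd rfl hij) | simp [v, Submodule.coe_inner, hen, real_inner_comm e n]
  let b : OrthonormalBasis (Fin 2) ℝ ↥((ℝ ∙ u)ᗮ) :=
    OrthonormalBasis.mk hv (by
      rw [hv.linearIndependent.span_eq_top_of_card_eq_finrank (by simp [hd])])
  let ψ : ↥((ℝ ∙ u)ᗮ) ≃ₜ ℝ × ℝ := b.repr.toHomeomorph.trans
    ((PiLp.homeomorph 2 (fun _ : Fin 2 => ℝ)).trans (Homeomorph.piFinTwo fun _ : Fin 2 => ℝ))
  refine ⟨ψ, ?_, fun x => ?_⟩
  · exact (volume_preserving_piFinTwo fun _ : Fin 2 => ℝ).comp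
      ((PiLp.volume_preserving_ofLp (Fin 2)).comp b.measurePreserving_repr)
  · refine Prod.ext ?_ ?_
    · show b.repr _ 0 = _
      rw [b.repr_apply_apply]
      simp only [b, OrthonormalBasis.coe_mk, v, Matrix.cons_val_zero]
      rw [Submodule.inner_orthogonalProjectionOnto_eq_of_mem_left]
    · show b.repr _ 1 = _
      rw [b.repr_apply_apply]
      simp only [b, OrthonormalBasis.coe_mk, v, Matrix.cons_val_one, Matrix.cons_val_fin_one]
      rw [Submodule.inner_orthogonalProjectionOnto_eq_of_mem_left]

end Vale.Agent.P243
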