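import Mathlib

/-!
The affine plank inequality for two families of parallel strips with arbitrary open bases.
-/

namespace Vale.Agent.P243

open Set MeasureTheory Filter Topology
open scoped ENNReal

/-- The six segment inequalities imply the inequality, case a ≤ b, c ≤ d. -/
lemma six_le {a b c d x₁ x₂ x₃ y₁ y₂ y₃ : ℝ} (ha : 0 < a) (hb : b < 1) (hc : 0 < c) (hd : d < 1)
    (hab : a ≤ b) (hcd : c ≤ d)
    (h1 : a * c ≤ a * x₁ + c * y₁)
    (h2 : (1 - a) * d ≤ (1 - a) * (x₁ + x₂) + d * (y₂ + y₃))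
    (h3 : b * (1 - c) ≤ b * (x₂ + x₃) + (1 - c) * (y₁ + y₂))
    (h4 : (1 - b) * (1 - d) ≤ (1 - b) * x₃ + (1 - d) * y₃)
    (h5 : b - a ≤ (b - a) * (x₁ + x₂ + x₃) + y₂)
    (h6 : d - c ≤ x₂ + (d - c) * (y₁ + y₂ + y₃)) :
    1 ≤ x₁ + x₂ + x₃ + y₁ + y₂ + y₃ := by
  have ha1 : a < 1 := by linarith
  have hb0 : 0 < b := by linarith
  have hc1 : c < 1 := by linarith
  have hd0 : 0 < d := by linarith
  rcases le_total 0 ((1 - d) * c * b * (1 - a) - (1 - c) * d * a * (1 - b)) with hT | hT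
  · set N := (1 - d) * (1 - a) + d * (1 - b) with hN
    set M := (1 - c) * a + c * b with hM
    have hN0 : 0 < N := by rw [hN]; nlinarith
    have hM0 : 0 < M := by rw [hM]; nlinarith
    set Z := N * a * b + M * (1 - a) * (1 - b)
      + ((1 - d) * c * b * (1 - a) - (1 - c) * d * a * (1 - b)) * (b - a) with hZ
    have hZ0 : 0 < Z := by
      rw [hZ]
      have : 0 < N * a * b := by positivity
      nlinarith [mul_nonneg (mul_nonneg hM0.le (sub_nonneg.2 ha1.le)) (sub_nonneg.2 hb.le),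
        mul_nonneg hT (sub_nonneg.2 hab)]
    have key : Z * 1 ≤ Z * (x₁ + x₂ + x₃ + y₁ + y₂ + y₃) := by
      have e1 := mul_le_mul_of_nonneg_left h1 (mul_nonneg hN0.le hb0.le)
      have e3 := mul_le_mul_of_nonneg_left h3 (mul_nonneg hN0.le ha.le)
      have e2 := mul_le_mul_of_nonneg_left h2 (mul_nonneg hM0.le (sub_nonneg.2 hb.le))
      have e4 := mul_le_mul_of_nonneg_left h4 (mul_nonneg hM0.le (sub_nonneg.2 ha1.le))
      have e5 := mul_le_mul_of_nonneg_left h5 hT
      rw [hZ, hN, hM]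
      rw [hN] at e1 e3
      rw [hM] at e2 e4
      linarith
    exact le_of_mul_le_mul_left key hZ0
  · set N := (1 - d) * b + (1 - c) * (1 - b) with hN
    set M := c * (1 - a) + d * a with hM
    have hN0 : 0 < N := by rw [hN]; nlinarith
    have hM0 : 0 < M := by rw [hM]; nlinarith
    set Z := (d * a + c * (1 - a)) * N with hZ
    have hZ0 : 0 < Z := mul_pos (by nlinarith) hN0
    have key : Z * 1 ≤ Z * (x₁ + x₂ + x₃ + y₁ + y₂ + y₃) := by
      have e1 := mul_le_mul_of_nonneg_left h1 (mul_nonneg hd0.le hN0.le)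
      have e2 := mul_le_mul_of_nonneg_left h2 (mul_nonneg hc.le hN0.le)
      have e3 := mul_le_mul_of_nonneg_left h3 (mul_nonneg (sub_nonneg.2 hd.le) hM0.le)
      have e4 := mul_le_mul_of_nonneg_left h4 (mul_nonneg (sub_nonneg.2 hc1.le) hM0.le)
      have e6 := mul_le_mul_of_nonneg_left h6 (neg_nonneg.2 hT)
      rw [hZ, hN]
      rw [hN] at e1 e2
      rw [hM] at e3 e4
      linarith
    exact le_of_mul_le_mul_left key hZ0

/-- Case a ≤ b, d ≤ c. -/
lemma six_le' {a b c d x₁ x₂ x₃ y₁ y₂ y₃ : ℝ} (ha : 0 < a) (hb : b < 1) (hd : 0 < d) (hc : c < 1)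
    (hab : a ≤ b) (hdc : d ≤ c)
    (h1 : a * c ≤ a * (x₁ + x₂) + c * y₁)
    (h2 : (1 - a) * d ≤ (1 - a) * x₁ + d * (y₂ + y₃))
    (h3 : b * (1 - c) ≤ b * x₃ + (1 - c) * (y₁ + y₂))
    (h4 : (1 - b) * (1 - d) ≤ (1 - b) * (x₂ + x₃) + (1 - d) * y₃)
    (h5 : b - a ≤ (b - a) * (x₁ + x₂ + x₃) + y₂) :
    1 ≤ x₁ + x₂ + x₃ + y₁ + y₂ + y₃ := by
  have ha1 : a < 1 := by linarith
  have hb0 : 0 < b := by linarith
  have hc0 : 0 < c := by linarith
  have hd1 : d < 1 := by linarith
  set T := (1 - d) * c * b * (1 - a) - (1 - c) * d * a * (1 - b) with hTdef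
  have hT : 0 ≤ T := by
    rw [hTdef]
    have e1 : (1 - c) * d ≤ (1 - d) * c := by linarith
    have e2 : a * (1 - b) ≤ b * (1 - a) := by linarith
    nlinarith [mul_le_mul e1 e2 (mul_nonneg ha.le (sub_nonneg.2 hb.le))
      (mul_nonneg (sub_nonneg.2 hd1.le) hc0.le)]
  set N := (1 - d) * (1 - a) + d * (1 - b) with hN
  set M := (1 - c) * a + c * b with hM
  have hN0 : 0 < N := by rw [hN]; nlinarith
  have hM0 : 0 < M := by rw [hM]; nlinarith
  set Z := N * a * b + M * (1 - a) * (1 - b) + T * (b - a) with hZ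
  have hZ0 : 0 < Z := by
    rw [hZ]
    have : 0 < N * a * b := by positivity
    nlinarith [mul_nonneg (mul_nonneg hM0.le (sub_nonneg.2 ha1.le)) (sub_nonneg.2 hb.le),
      mul_nonneg hT (sub_nonneg.2 hab)]
  have key : Z * 1 ≤ Z * (x₁ + x₂ + x₃ + y₁ + y₂ + y₃) := by
    have e1 := mul_le_mul_of_nonneg_left h1 (mul_nonneg hN0.le hb0.le)
    have e3 := mul_le_mul_of_nonneg_left h3 (mul_nonneg hN0.le ha.le)
    have e2 := mul_le_mul_of_nonneg_left h2 (mul_nonneg hM0.le (sub_nonneg.2 hb.le))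
    have e4 := mul_le_mul_of_nonneg_left h4 (mul_nonneg hM0.le (sub_nonneg.2 ha1.le))
    have e5 := mul_le_mul_of_nonneg_left h5 hT
    rw [hZ, hTdef, hN, hM]
    rw [hN] at e1 e3
    rw [hM] at e2 e4
    rw [hTdef] at e5
    linarith
  exact le_of_mul_le_mul_left key hZ0

/-- All four cases, with monotone cumulative functions F and G. -/
lemma quad_ineq {a b c d : ℝ} (ha : 0 < a) (ha' : a < 1) (hb : 0 < b) (hb' : b < 1) (hc : 0 < c)
    (hc' : c < 1) (hd : 0 < d) (hd' : d < 1) (F G : ℝ → ℝ)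
    (hseg : ∀ p ∈ ({(0, a), (1, b), (c, 0), (d, 1)} : Set (ℝ × ℝ)),
      ∀ q ∈ ({(0, a), (1, b), (c, 0), (d, 1)} : Set (ℝ × ℝ)),
        |q.1 - p.1| * |q.2 - p.2| ≤
          |q.2 - p.2| * (F (max p.1 q.1) - F (min p.1 q.1))
            + |q.1 - p.1| * (G (max p.2 q.2) - G (min p.2 q.2))) :
    1 ≤ F 1 - F 0 + (G 1 - G 0) := by
  have hLB := hseg (0, a) (by simp) (c, 0) (by simp)
  have hLT := hseg (0, a) (by simp) (d, 1) (by simp)
  have hBR := hseg (c, 0) (by simp) (1, b) (by simp)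
  have hTR := hseg (d, 1) (by simp) (1, b) (by simp)
  have hLR := hseg (0, a) (by simp) (1, b) (by simp)
  have hBT := hseg (c, 0) (by simp) (d, 1) (by simp)
  simp only [sub_zero, zero_sub, abs_neg, abs_of_pos ha, abs_of_pos hb, abs_of_pos hc, abs_of_pos hd,
    abs_of_pos (sub_pos.2 ha'), abs_of_pos (sub_pos.2 hc'), abs_of_pos (sub_pos.2 hd'),
    abs_sub_comm b 1, abs_of_pos (sub_pos.2 hb'), abs_one, max_eq_right hc.le, min_eq_left hc.le,
    max_eq_right hd.le, min_eq_left hd.le, max_eq_left ha.le, min_eq_right ha.le,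
    max_eq_right hc'.le, min_eq_left hc'.le, max_eq_right hd'.le, min_eq_left hd'.le,
    max_eq_right ha'.le, min_eq_left ha'.le, max_eq_right hb.le, min_eq_left hb.le,
    max_eq_left hb'.le, min_eq_right hb'.le, max_eq_right (zero_le_one (α := ℝ)),
    min_eq_left (zero_le_one (α := ℝ)), one_mul, mul_one] at hLB hLT hBR hTR hLR hBT
  rcases le_total a b with hab | hab
  · simp only [abs_of_nonneg (sub_nonneg.2 hab), max_eq_right hab, min_eq_left hab] at hLR
    rcases le_total c d with hcd | hcd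
    · simp only [abs_of_nonneg (sub_nonneg.2 hcd), max_eq_right hcd, min_eq_left hcd] at hBT
      have := six_le (x₁ := F c - F 0) (x₂ := F d - F c) (x₃ := F 1 - F d)
        (y₁ := G a - G 0) (y₂ := G b - G a) (y₃ := G 1 - G b) ha hb' hc hd' hab hcd
        (by linarith) (by linarith) (by linarith) (by linarith) (by linarith) (by linarith)
      linarith
    · have := six_le' (x₁ := F d - F 0) (x₂ := F c - F d) (x₃ := F 1 - F c)
        (y₁ := G a - G 0) (y₂ := G b - G a) (y₃ := G 1 - G b) ha hb' hd hc' hab hcd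
        (by linarith) (by linarith) (by linarith) (by linarith) (by linarith)
      linarith
  · simp only [abs_sub_comm b a, abs_of_nonneg (sub_nonneg.2 hab), max_eq_left hab,
      min_eq_right hab] at hLR
    rcases le_total c d with hcd | hcd
    · -- reflect x: a ↔ b, c ↦ 1 - c, d ↦ 1 - d
      have := six_le' (a := b) (b := a) (c := 1 - c) (d := 1 - d)
        (x₁ := F 1 - F d) (x₂ := F d - F c) (x₃ := F c - F 0)
        (y₁ := G b - G 0) (y₂ := G a - G b) (y₃ := G 1 - G a) hb ha' (by linarith) (by linarith)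
        hab (by linarith)
        (by linarith) (by linarith) (by linarith) (by linarith) (by linarith)
      linarith
    · simp only [abs_sub_comm d c, abs_of_nonneg (sub_nonneg.2 hcd), max_eq_left hcd,
        min_eq_right hcd] at hBT
      have := six_le (a := b) (b := a) (c := 1 - c) (d := 1 - d)
        (x₁ := F 1 - F c) (x₂ := F c - F d) (x₃ := F d - F 0)
        (y₁ := G b - G 0) (y₂ := G a - G b) (y₃ := G 1 - G a) hb ha' (by linarith) (by linarith)
        hab (by linarith)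
        (by linarith) (by linarith) (by linarith) (by linarith) (by linarith) (by linarith)
      linarith

/-- The cumulative measure of an open set. -/
noncomputable def cum (X : Set ℝ) (l : ℝ) (s : ℝ) : ℝ :=
  if l ≤ s then (volume (X ∩ Ioc l s)).toReal else 0

lemma inter_Ioc_ne_top (X : Set ℝ) (p q : ℝ) : volume (X ∩ Ioc p q) ≠ ∞ :=
  ne_top_of_le_ne_top measure_Ioc_lt_top.ne (measure_mono inter_subset_right)

lemma cum_sub {X : Set ℝ} (hX : MeasurableSet X) {l p q : ℝ} (hlp : l ≤ p) (hpq : p ≤ q) :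
    cum X l q - cum X l p = (volume (X ∩ Ioc p q)).toReal := by
  have : volume (X ∩ Ioc l q) = volume (X ∩ Ioc l p) + volume (X ∩ Ioc p q) := by
    rw [← Ioc_union_Ioc_eq_Ioc hlp hpq, inter_union_distrib_left,
      measure_union (((Ioc_disjoint_Ioc_of_le le_rfl)).mono inter_subset_right inter_subset_right)
        (hX.inter measurableSet_Ioc)]
  simp only [cum, if_pos hlp, if_pos (hlp.trans hpq)]
  rw [this, ENNReal.toReal_add (inter_Ioc_ne_top X l p) (inter_Ioc_ne_top X p q)]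
  ring

/-- The covering inequality along one segment. -/
lemma segment_ineq {X Y : Set ℝ} {p q : ℝ × ℝ}
    (h : ∀ z ∈ segment ℝ p q, z.1 ∈ X ∨ z.2 ∈ Y) :
    |q.1 - p.1| * |q.2 - p.2| ≤
      |q.2 - p.2| * (volume (X ∩ Ioc (min p.1 q.1) (max p.1 q.1))).toReal
        + |q.1 - p.1| * (volume (Y ∩ Ioc (min p.2 q.2) (max p.2 q.2))).toReal := by
  set dx := q.1 - p.1 with hdx
  set dy := q.2 - p.2 with hdy
  rcases eq_or_ne dx 0 with h0 | hx
  · simp [h0]; positivity
  rcases eq_or_ne dy 0 with h0 | hy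
  · simp [h0]; positivity
  have hsub : Ioo (0:ℝ) 1 ⊆ ((fun s => dx * s) ⁻¹' ((fun t => p.1 + t) ⁻¹' (X ∩ Ioc (min p.1 q.1) (max p.1 q.1))))
      ∪ ((fun s => dy * s) ⁻¹' ((fun t => p.2 + t) ⁻¹' (Y ∩ Ioc (min p.2 q.2) (max p.2 q.2)))) := by
    intro s hs
    have hmem : ((p.1 + dx * s, p.2 + dy * s) : ℝ × ℝ) ∈ segment ℝ p q :=
      ⟨1 - s, s, by linarith [hs.2], hs.1.le, by ring, by ext <;> simp [dx, dy] <;> ring⟩
    have hI : ∀ u v : ℝ, v - u ≠ 0 → u + (v - u) * s ∈ Ioc (min u v) (max u v) := by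
      intro u v huv
      rcases lt_or_gt_of_ne huv with h | h
      · rw [min_eq_right (by linarith), max_eq_left (by linarith)]
        constructor <;> nlinarith [hs.1, hs.2]
      · rw [min_eq_left (by linarith), max_eq_right (by linarith)]
        constructor <;> nlinarith [hs.1, hs.2]
    rcases h _ hmem with h | h
    · exact Or.inl ⟨h, hI _ _ hx⟩
    · exact Or.inr ⟨h, hI _ _ hy⟩
  have := (measure_mono (μ := volume) hsub).trans (measure_union_le _ _)
  rw [Real.volume_Ioo, Real.volume_preimage_mul_left hx, Real.volume_preimage_mul_left hy,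
    measure_preimage_add, measure_preimage_add] at this
  have h2 := ENNReal.toReal_mono (ENNReal.add_ne_top.2
    ⟨ENNReal.mul_ne_top ENNReal.ofReal_ne_top (inter_Ioc_ne_top _ _ _),
      ENNReal.mul_ne_top ENNReal.ofReal_ne_top (inter_Ioc_ne_top _ _ _)⟩) this
  rw [ENNReal.toReal_add (ENNReal.mul_ne_top ENNReal.ofReal_ne_top (inter_Ioc_ne_top _ _ _))
      (ENNReal.mul_ne_top ENNReal.ofReal_ne_top (inter_Ioc_ne_top _ _ _)),
    ENNReal.toReal_mul, ENNReal.toReal_mul, ENNReal.toReal_ofReal (abs_nonneg _),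
    ENNReal.toReal_ofReal (abs_nonneg _), ENNReal.toReal_ofReal (by norm_num)] at h2
  have h3 := mul_le_mul_of_nonneg_left h2 (mul_nonneg (abs_nonneg dx) (abs_nonneg dy))
  rw [abs_inv, abs_inv] at h3
  have hax := abs_pos.2 hx
  have hay := abs_pos.2 hy
  calc |dx| * |dy| = |dx| * |dy| * (1 - 0) := by ring
    _ ≤ _ := h3
    _ = _ := by field_simp

/-- Four points in general position. -/
lemma four_points {X Y : Set ℝ} (hX : MeasurableSet X) (hY : MeasurableSet Y)
    (hXf : volume X ≠ ∞) (hYf : volume Y ≠ ∞) {C : Set (ℝ × ℝ)} (hc : Convex ℝ C)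
    (hcov : ∀ z ∈ C, z.1 ∈ X ∨ z.2 ∈ Y) {L R B T : ℝ × ℝ} (hL : L ∈ C) (hR : R ∈ C) (hB : B ∈ C)
    (hT : T ∈ C) (h1 : L.1 < B.1) (h2 : B.1 < R.1) (h3 : L.1 < T.1) (h4 : T.1 < R.1)
    (h5 : B.2 < L.2) (h6 : L.2 < T.2) (h7 : B.2 < R.2) (h8 : R.2 < T.2) :
    (R.1 - L.1) * (T.2 - B.2)
      ≤ (T.2 - B.2) * (volume X).toReal + (R.1 - L.1) * (volume Y).toReal := by
  set w := R.1 - L.1 with hw
  set h := T.2 - B.2 with hh
  have hw0 : 0 < w := by linarith
  have hh0 : 0 < h := by linarith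
  set F : ℝ → ℝ := fun s => cum X L.1 (L.1 + w * s) / w with hF
  set G : ℝ → ℝ := fun s => cum Y B.2 (B.2 + h * s) / h with hG
  have key := quad_ineq (a := (L.2 - B.2) / h) (b := (R.2 - B.2) / h) (c := (B.1 - L.1) / w)
    (d := (T.1 - L.1) / w) (div_pos (by linarith) hh0) ((div_lt_one hh0).2 (by linarith))
    (div_pos (by linarith) hh0) ((div_lt_one hh0).2 (by linarith)) (div_pos (by linarith) hw0)
    ((div_lt_one hw0).2 (by linarith)) (div_pos (by linarith) hw0)
    ((div_lt_one hw0).2 (by linarith)) F G ?_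
  · have hX' : cum X L.1 R.1 ≤ (volume X).toReal := by
      simp only [cum, if_pos (by linarith : L.1 ≤ R.1)]
      exact ENNReal.toReal_mono hXf (measure_mono inter_subset_left)
    have hY' : cum Y B.2 T.2 ≤ (volume Y).toReal := by
      simp only [cum, if_pos (by linarith : B.2 ≤ T.2)]
      exact ENNReal.toReal_mono hYf (measure_mono inter_subset_left)
    have hX0 : cum X L.1 L.1 = 0 := by simp [cum]
    have hY0 : cum Y B.2 B.2 = 0 := by simp [cum]
    simp only [F, G, mul_one, mul_zero, add_zero, hX0, hY0, zero_div, sub_zero, hw, hh,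
      add_sub_cancel] at key
    rw [← hw, ← hh] at key
    rw [div_add_div _ _ hw0.ne' hh0.ne', le_div_iff₀ (mul_pos hw0 hh0)] at key
    nlinarith [mul_le_mul_of_nonneg_left hX' hh0.le, mul_le_mul_of_nonneg_left hY' hw0.le]
  · intro p hp q hq
    let φ : ℝ × ℝ → ℝ × ℝ := fun z => (L.1 + w * z.1, B.2 + h * z.2)
    have hmem : ∀ z ∈ ({(0, (L.2 - B.2) / h), (1, (R.2 - B.2) / h), ((B.1 - L.1) / w, 0),
        ((T.1 - L.1) / w, 1)} : Set (ℝ × ℝ)), φ z ∈ C ∧ 0 ≤ z.1 ∧ 0 ≤ z.2 := by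
      intro z hz
      simp only [mem_insert_iff, mem_singleton_iff] at hz
      rcases hz with rfl | rfl | rfl | rfl
      · refine ⟨?_, le_rfl, div_nonneg (by linarith) hh0.le⟩
        convert hL using 1; ext <;> simp [φ]; field_simp; ring
      · refine ⟨?_, zero_le_one, div_nonneg (by linarith) hh0.le⟩
        convert hR using 1; ext <;> simp [φ, hw]; field_simp; ring
      · refine ⟨?_, div_nonneg (by linarith) hw0.le, le_rfl⟩
        convert hB using 1; ext <;> simp [φ]; field_simp; ring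
      · refine ⟨?_, div_nonneg (by linarith) hw0.le, zero_le_one⟩
        convert hT using 1; ext <;> simp [φ, hh]; field_simp; ring
    obtain ⟨hpC, hp1, hp2⟩ := hmem p hp
    obtain ⟨hqC, hq1, hq2⟩ := hmem q hq
    have hs := segment_ineq (X := X) (Y := Y) (p := φ p) (q := φ q)
      fun z hz => hcov z (hc.segment_subset hpC hqC hz)
    have hmx : ∀ {l k u v : ℝ}, 0 < k → max (l + k * u) (l + k * v) = l + k * max u v ∧
        min (l + k * u) (l + k * v) = l + k * min u v := by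
      intro l k u v hk
      rcases le_total u v with huv | huv
      · have := mul_le_mul_of_nonneg_left huv hk.le
        constructor
        · rw [max_eq_right huv, max_eq_right (by linarith)]
        · rw [min_eq_left huv, min_eq_left (by linarith)]
      · have := mul_le_mul_of_nonneg_left huv hk.le
        constructor
        · rw [max_eq_left huv, max_eq_left (by linarith)]
        · rw [min_eq_right huv, min_eq_right (by linarith)]
    simp only [φ, (hmx hw0).1, (hmx hw0).2, (hmx hh0).1, (hmx hh0).2] at hs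
    rw [← cum_sub hX (l := L.1) (by have := mul_nonneg hw0.le (le_min hp1 hq1); linarith)
        (by have := mul_le_mul_of_nonneg_left (min_le_max (a := p.1) (b := q.1)) hw0.le; linarith),
      ← cum_sub hY (l := B.2) (by have := mul_nonneg hh0.le (le_min hp2 hq2); linarith)
        (by have := mul_le_mul_of_nonneg_left (min_le_max (a := p.2) (b := q.2)) hh0.le; linarith),
      show L.1 + w * q.1 - (L.1 + w * p.1) = w * (q.1 - p.1) by ring,
      show B.2 + h * q.2 - (B.2 + h * p.2) = h * (q.2 - p.2) by ring, abs_mul, abs_mul,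
      abs_of_pos hw0, abs_of_pos hh0] at hs
    apply le_of_mul_le_mul_left _ (mul_pos hw0 hh0)
    simp only [F, G]
    field_simp
    linarith

/-- Two plank families covering a planar convex body. -/
theorem two_plank_families {C : Set (ℝ × ℝ)} (hc : Convex ℝ C) (hint : (interior C).Nonempty)
    {x₀ x₁ y₀ y₁ : ℝ} (hx : Prod.fst '' C = Icc x₀ x₁) (hy : Prod.snd '' C = Icc y₀ y₁)
    {X Y : Set ℝ} (hX : MeasurableSet X) (hY : MeasurableSet Y)
    (hcov : ∀ z ∈ C, z.1 ∈ X ∨ z.2 ∈ Y) :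
    1 ≤ volume X / ENNReal.ofReal (x₁ - x₀) + volume Y / ENNReal.ofReal (y₁ - y₀) := by
  obtain ⟨O, hO⟩ := hint
  obtain ⟨ρ, hρ, hball⟩ := Metric.mem_nhds_iff.1 (mem_interior_iff_mem_nhds.1 hO)
  have hOC : O ∈ C := interior_subset hO
  by_cases hXf : volume X = ∞
  · rw [hXf, ENNReal.top_div_of_ne_top ENNReal.ofReal_ne_top, top_add]; exact le_top
  by_cases hYf : volume Y = ∞
  · rw [hYf, ENNReal.top_div_of_ne_top ENNReal.ofReal_ne_top, add_top]; exact le_top
  have hxle : x₀ ≤ x₁ := by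
    have := hx ▸ mem_image_of_mem Prod.fst hOC; exact this.1.trans this.2
  have hyle : y₀ ≤ y₁ := by
    have := hy ▸ mem_image_of_mem Prod.snd hOC; exact this.1.trans this.2
  obtain ⟨L, hL, hL1⟩ : x₀ ∈ Prod.fst '' C := by rw [hx]; exact left_mem_Icc.2 hxle
  obtain ⟨R, hR, hR1⟩ : x₁ ∈ Prod.fst '' C := by rw [hx]; exact right_mem_Icc.2 hxle
  obtain ⟨B, hB, hB2⟩ : y₀ ∈ Prod.snd '' C := by rw [hy]; exact left_mem_Icc.2 hyle
  obtain ⟨T, hT, hT2⟩ : y₁ ∈ Prod.snd '' C := by rw [hy]; exact right_mem_Icc.2 hyle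
  have hfr : ∀ z ∈ C, x₀ ≤ z.1 ∧ z.1 ≤ x₁ ∧ y₀ ≤ z.2 ∧ z.2 ≤ y₁ := fun z hz => by
    have a := hx ▸ mem_image_of_mem Prod.fst hz
    have b := hy ▸ mem_image_of_mem Prod.snd hz
    exact ⟨a.1, a.2, b.1, b.2⟩
  -- perturbed extreme points
  have hpert : ∀ ε : ℝ, 0 < ε → ε ≤ 1 → ∀ P ∈ C, ∀ k : ℝ × ℝ, |k.1| ≤ 1 → |k.2| ≤ 1 →
      (1 - ε) • P + ε • O + (ε * (ρ/2)) • k ∈ C := by
    intro ε hε hε1 P hP k hk1 hk2
    have hm : O + (ρ/2) • k ∈ C := hball (by
      rw [Metric.mem_ball, dist_eq_norm, add_sub_cancel_left, norm_smul,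
        Real.norm_of_nonneg (by linarith : 0 ≤ ρ/2)]
      have : ‖k‖ ≤ 1 := by rw [Prod.norm_def]; exact max_le hk1 hk2
      nlinarith [norm_nonneg k])
    have := hc hP hm (sub_nonneg.2 hε1) hε.le (by ring)
    rw [smul_add, smul_smul, ← add_assoc] at this
    exact this
  have key : ∀ ε ∈ Ioc (0:ℝ) 1,
      ((1 - ε) * (x₁ - x₀) + ε * ρ) * ((1 - ε) * (y₁ - y₀) + ε * ρ) ≤
        ((1 - ε) * (y₁ - y₀) + ε * ρ) * (volume X).toReal
          + ((1 - ε) * (x₁ - x₀) + ε * ρ) * (volume Y).toReal := by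
    rintro ε ⟨hε, hε1⟩
    have e0 : 0 ≤ 1 - ε := sub_nonneg.2 hε1
    have hp : 0 < ε * (ρ/2) := by positivity
    have hfL := hfr L hL
    have hfR := hfr R hR
    have hfB := hfr B hB
    have hfT := hfr T hT
    have := four_points hX hY hXf hYf hc hcov
      (hpert ε hε hε1 L hL (-1, 0) (by simp) (by simp))
      (hpert ε hε hε1 R hR (1, 0) (by simp) (by simp))
      (hpert ε hε hε1 B hB (0, -1) (by simp) (by simp))
      (hpert ε hε hε1 T hT (0, 1) (by simp) (by simp))
      (by simp; nlinarith [hfB.1]) (by simp; nlinarith [hfB.2.1])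
      (by simp; nlinarith [hfT.1]) (by simp; nlinarith [hfT.2.1])
      (by simp; nlinarith [hfL.2.2.1]) (by simp; nlinarith [hfL.2.2.2])
      (by simp; nlinarith [hfR.2.2.1]) (by simp; nlinarith [hfR.2.2.2])
    simp only [Prod.fst_add, Prod.snd_add, Prod.smul_fst, Prod.smul_snd, smul_eq_mul, hL1, hR1,
      hB2, hT2] at this
    linarith
  have hlim : (x₁ - x₀) * (y₁ - y₀)
      ≤ (y₁ - y₀) * (volume X).toReal + (x₁ - x₀) * (volume Y).toReal := by
    have c1 : Continuous fun ε : ℝ =>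
        ((1 - ε) * (x₁ - x₀) + ε * ρ) * ((1 - ε) * (y₁ - y₀) + ε * ρ) := by fun_prop
    have c2 : Continuous fun ε : ℝ =>
        ((1 - ε) * (y₁ - y₀) + ε * ρ) * (volume X).toReal
          + ((1 - ε) * (x₁ - x₀) + ε * ρ) * (volume Y).toReal := by fun_prop
    have := le_of_tendsto_of_tendsto (b := 𝓝[>] (0:ℝ))
      ((c1.tendsto 0).mono_left nhdsWithin_le_nhds) ((c2.tendsto 0).mono_left nhdsWithin_le_nhds)
      (eventually_of_mem (Ioc_mem_nhdsGT one_pos) key)
    simpa using this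
  have hx1 : x₀ < x₁ := by
    have hm1 := (hfr _ (hpert 1 one_pos le_rfl O hOC (1, 0) (by simp) (by simp))).2.1
    have hm2 := (hfr O hOC).1
    simp at hm1
    linarith
  have hy1 : y₀ < y₁ := by
    have hm1 := (hfr _ (hpert 1 one_pos le_rfl O hOC (0, 1) (by simp) (by simp))).2.2.2
    have hm2 := (hfr O hOC).2.2.1
    simp at hm1
    linarith
  have hreal : 1 ≤ (volume X).toReal / (x₁ - x₀) + (volume Y).toReal / (y₁ - y₀) := by
    rw [div_add_div _ _ (by linarith) (by linarith),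
      le_div_iff₀ (mul_pos (by linarith) (by linarith))]
    linarith
  have := ENNReal.ofReal_le_ofReal hreal
  rw [ENNReal.ofReal_one, ENNReal.ofReal_add (div_nonneg ENNReal.toReal_nonneg (by linarith))
      (div_nonneg ENNReal.toReal_nonneg (by linarith)),
    ENNReal.ofReal_div_of_pos (by linarith), ENNReal.ofReal_div_of_pos (by linarith),
    ENNReal.ofReal_toReal hXf, ENNReal.ofReal_toReal hYf] at this
  exact this

end Vale.Agent.P243
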