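import Mathlib
import Vale.Agent.P243.Cover
import Vale.Agent.P243.Slices
import Vale.Agent.P243.TwoPlanks

/-!
Cylinder coverings with coplanar axes, and with axes in two directions.
-/

namespace Vale.Agent.P243

open Set MeasureTheory
open scoped RealInnerProductSpace ENNReal NNReal

variable {E : Type*} [NormedAddCommGroup E] [InnerProductSpace ℝ E] [FiniteDimensional ℝ E]
  [MeasurableSpace E] [BorelSpace E]

/-- The pair of coordinates along e and n. -/
noncomputable def pr (e n : E) : E →L[ℝ] ℝ × ℝ := (innerSL ℝ e).prod (innerSL ℝ n)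

omit [FiniteDimensional ℝ E] [MeasurableSpace E] [BorelSpace E] in
@[simp] lemma pr_apply (e n x : E) : pr e n x = (⟪e, x⟫, ⟪n, x⟫) := rfl

omit [MeasurableSpace E] [BorelSpace E] in
lemma exists_unit_orth (hdim : Module.finrank ℝ E = 3) (a b : E) :
    ∃ v : E, ‖v‖ = 1 ∧ ⟪a, v⟫ = 0 ∧ ⟪b, v⟫ = 0 := by
  classical
  set P := Submodule.span ℝ (({a, b} : Finset E) : Set E) with hP
  have h1 : Module.finrank ℝ P ≤ 2 :=
    (finrank_span_finset_le_card _).trans Finset.card_le_two
  have h2 := P.finrank_add_finrank_orthogonal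
  have h3 : Pᗮ ≠ ⊥ := fun h => by
    rw [h, finrank_bot] at h2
    omega
  obtain ⟨w, hw, hw0⟩ := Submodule.exists_mem_ne_zero_of_ne_bot h3
  have hmem : ∀ x ∈ ({a, b} : Finset E), ⟪x, w⟫ = 0 := fun x hx =>
    Submodule.inner_right_of_mem_orthogonal (Submodule.subset_span hx) hw
  refine ⟨‖w‖⁻¹ • w, norm_smul_inv_norm hw0, ?_, ?_⟩ <;>
    rw [inner_smul_right, hmem _ (by simp), mul_zero]

lemma proj_area (hdim : Module.finrank ℝ E = 3) {u e n : E} (hu : u ≠ 0) (he : ‖e‖ = 1)
    (hn : ‖n‖ = 1) (hen : ⟪e, n⟫ = 0) (heu : ⟪e, u⟫ = 0) (hnu : ⟪n, u⟫ = 0) (K : Set E) :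
    volume ((fun x => (ℝ ∙ u)ᗮ.orthogonalProjectionOnto x) '' K) = volume (pr e n '' K) := by
  obtain ⟨ψ, hψ, hψx⟩ := plane_coords hdim hu he hn hen heu hnu
  rw [show pr e n '' K = ψ '' ((fun x => (ℝ ∙ u)ᗮ.orthogonalProjectionOnto x) '' K) by
    rw [image_image]; simp only [hψx]; rfl]
  rw [← hψ.measure_preimage_emb ψ.measurableEmbedding, preimage_image_eq _ ψ.injective]

lemma open_base (hdim : Module.finrank ℝ E = 3) {u e n : E} (hu : u ≠ 0) (he : ‖e‖ = 1)
    (hn : ‖n‖ = 1) (hen : ⟪e, n⟫ = 0) (heu : ⟪e, u⟫ = 0) (hnu : ⟪n, u⟫ = 0)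
    (B : Set ↥((ℝ ∙ u)ᗮ)) {δ : ℝ≥0∞} (hδ : δ ≠ 0) :
    ∃ U : Set (ℝ × ℝ), IsOpen U ∧ volume U ≤ volume B + δ ∧
      ∀ x, (ℝ ∙ u)ᗮ.orthogonalProjectionOnto x ∈ B → pr e n x ∈ U := by
  obtain ⟨ψ, hψ, hψx⟩ := plane_coords hdim hu he hn hen heu hnu
  obtain ⟨U, hBU, hU, hvol⟩ := (ψ '' B).exists_isOpen_le_add volume hδ
  refine ⟨U, hU, hvol.trans_eq ?_, fun x hx => hBU ⟨_, hx, by rw [hψx, pr_apply]⟩⟩
  rw [← hψ.measure_preimage_emb ψ.measurableEmbedding, preimage_image_eq _ ψ.injective]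

omit [MeasurableSpace E] [BorelSpace E] in
lemma area_ne_zero {e n : E} (he : ‖e‖ = 1) (hn : ‖n‖ = 1) (hen : ⟪e, n⟫ = 0) {K : Set E}
    (hint : (interior K).Nonempty) : volume (pr e n '' K) ≠ 0 := by
  have hs : Function.Surjective (pr e n) := fun z => ⟨z.1 • e + z.2 • n, by
    simp [inner_add_right, inner_smul_right, he, hn, hen, real_inner_comm e n]⟩
  exact ((((pr e n).isOpenMap hs) _ isOpen_interior).measure_pos volume
    (hint.image _)).trans_le (measure_mono (image_mono interior_subset)) |>.ne'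

omit [MeasurableSpace E] [BorelSpace E] in
lemma level_range {K : Set E} (hK : IsCompact K) (hc : Convex ℝ K) (hint : (interior K).Nonempty)
    {e : E} (he : e ≠ 0) :
    ∃ a b : ℝ, a < b ∧ (fun x => ⟪e, x⟫) '' K = Icc a b ∧
      ∀ t ∈ Ioo a b, ∃ x ∈ interior K, ⟪e, x⟫ = t := by
  set L : E →L[ℝ] ℝ := innerSL ℝ e with hL
  have himg := fibre_eq_Icc (hK.image L.continuous) (hc.linear_image L.toLinearMap)
    ((hint.mono interior_subset).image L)
  set a := sInf (L '' K)
  set b := sSup (L '' K)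
  have hsurj : Function.Surjective L := fun r => ⟨(r / ‖e‖ ^ 2) • e, by
    simp [L, he]⟩
  have hop : IsOpen (L '' interior K) := L.isOpenMap hsurj _ isOpen_interior
  have hab : a < b := by
    by_contra h
    obtain ⟨r, hr⟩ := hint.image L
    obtain ⟨ρ, hρ, hball⟩ := Metric.isOpen_iff.1 hop r hr
    have h1 := himg ▸ (image_mono interior_subset (hball (Metric.mem_ball_self hρ)) : r ∈ L '' K)
    have h2 := himg ▸ (image_mono interior_subset (hball
      (by simp [abs_of_pos, hρ] : r + ρ/2 ∈ Metric.ball r ρ)) :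
        r + ρ/2 ∈ L '' K)
    linarith [h1.1, h2.2, not_lt.1 h]
  refine ⟨a, b, hab, himg, fun t ht => ?_⟩
  have hcl : closure (interior K) = K := by
    rw [hc.closure_interior_eq_closure_of_nonempty_interior hint, hK.isClosed.closure_eq]
  have hlo : ∃ x ∈ interior K, L x < t := by
    by_contra hne
    push Not at hne
    obtain ⟨x, hx, hxa⟩ : a ∈ L '' K := himg ▸ left_mem_Icc.2 hab.le
    rw [← hcl] at hx
    have := closure_minimal hne (isClosed_le continuous_const L.continuous) hx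
    change t ≤ L x at this
    linarith [ht.1]
  have hhi : ∃ x ∈ interior K, t < L x := by
    by_contra hne
    push Not at hne
    obtain ⟨x, hx, hxb⟩ : b ∈ L '' K := himg ▸ right_mem_Icc.2 hab.le
    rw [← hcl] at hx
    have := closure_minimal hne (isClosed_le L.continuous continuous_const) hx
    change L x ≤ t at this
    linarith [ht.2]
  obtain ⟨x, hx, hxt⟩ := hlo
  obtain ⟨y, hy, hyt⟩ := hhi
  exact (hc.interior.linear_image L.toLinearMap).ordConnected.out ⟨x, hx, rfl⟩ ⟨y, hy, rfl⟩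
    ⟨hxt.le, hyt.le⟩

omit [FiniteDimensional ℝ E] [MeasurableSpace E] [BorelSpace E] in
lemma fibre_pr (e n : E) (K : Set E) (t : ℝ) :
    fibre (pr e n '' K) t = (fun x => ⟪n, x⟫) '' (K ∩ {x | ⟪e, x⟫ = t}) := by
  ext s
  constructor
  · rintro ⟨x, hx, hxe⟩
    simp only [pr_apply, Prod.mk.injEq] at hxe
    exact ⟨x, ⟨hx, hxe.1⟩, hxe.2⟩
  · rintro ⟨x, ⟨hx, hxe⟩, rfl⟩
    exact ⟨x, hx, by simp [pr_apply, show ⟪e, x⟫ = t from hxe]⟩

omit [FiniteDimensional ℝ E] [MeasurableSpace E] [BorelSpace E] in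
lemma fst_pr (e n : E) (K : Set E) : Prod.fst '' (pr e n '' K) = (fun x => ⟪e, x⟫) '' K := by
  rw [image_image]; rfl

lemma integrate_slices {ι : Type*} [Fintype ι] {a b : ℝ} (hab : a < b) (U : ι → Set (ℝ × ℝ))
    (hU : ∀ i, MeasurableSet (U i)) (c : ι → ℝ≥0∞) (A : ℝ≥0∞)
    (h : ∀ t ∈ Icc a b, ENNReal.ofReal (tent a b t) * A ≤ ∑ i, c i * volume (fibre (U i) t)) :
    A / 2 ≤ ∑ i, c i * volume (U i) := by
  have hm : ∀ i, Measurable fun t => volume (fibre (U i) t) := fun i =>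
    measurable_measure_prodMk_left (hU i)
  calc A / 2 = (∫⁻ t in Icc a b, ENNReal.ofReal (tent a b t)) * A := by
        rw [lintegral_tent hab, ENNReal.div_eq_inv_mul]
        norm_num [ENNReal.ofReal_div_of_pos]
    _ = ∫⁻ t in Icc a b, ENNReal.ofReal (tent a b t) * A :=
        (lintegral_mul_const _ (tent_continuous a b).measurable.ennreal_ofReal).symm
    _ ≤ ∫⁻ t in Icc a b, ∑ i, c i * volume (fibre (U i) t) :=
        setLIntegral_mono' measurableSet_Icc h
    _ = ∑ i, ∫⁻ t in Icc a b, c i * volume (fibre (U i) t) :=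
        lintegral_finsetSum _ fun i _ => (hm i).const_mul _
    _ ≤ ∑ i, c i * volume (U i) := Finset.sum_le_sum fun i _ => by
        rw [lintegral_const_mul _ (hm i)]
        gcongr
        rw [Measure.volume_eq_prod ℝ ℝ, Measure.prod_apply (hU i)]
        exact setLIntegral_le_lintegral _ _

lemma le_of_open_approx {ι : Type*} [Fintype ι] {X : ℝ≥0∞} (c : ι → ℝ≥0∞) (hc : ∀ i, c i ≠ ⊤)
    (v : ι → ℝ≥0∞) (h : ∀ δ : ℝ≥0∞, δ ≠ 0 → X ≤ ∑ i, c i * (v i + δ)) :
    X ≤ ∑ i, c i * v i := by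
  refine ENNReal.le_of_forall_pos_le_add fun ε hε _ => ?_
  set S := ∑ i, c i + 1 with hS
  have hSt : S ≠ ⊤ := ENNReal.add_ne_top.2
    ⟨(ENNReal.sum_lt_top.2 fun i _ => (hc i).lt_top).ne, ENNReal.one_ne_top⟩
  have hd : (ε : ℝ≥0∞) / S ≠ 0 := by simp [ENNReal.div_eq_zero_iff, hε.ne', hSt]
  refine (h _ hd).trans ?_
  simp only [mul_add, Finset.sum_add_distrib, ← Finset.sum_mul]
  gcongr
  calc (∑ i, c i) * ((ε : ℝ≥0∞) / S) ≤ S * ((ε : ℝ≥0∞) / S) := by gcongr; exact le_self_add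
    _ ≤ ε := ENNReal.mul_div_le

/-- All axes parallel to one plane: the bases have total area at least half the smallest
projection along a direction of that plane. -/
theorem coplanar_axes (hdim : Module.finrank ℝ E = 3) {K : Set E} (hK : IsCompact K)
    (hc : Convex ℝ K) (hint : (interior K).Nonempty) {ι : Type*} [Fintype ι] (e : E)
    (he : ‖e‖ = 1) (u : ι → E) (hu : ∀ i, ‖u i‖ = 1) (hue : ∀ i, ⟪u i, e⟫ = 0)
    (B : ∀ i, Set ↥((ℝ ∙ u i)ᗮ))
    (hcov : ∀ x ∈ K, ∃ i, (ℝ ∙ u i)ᗮ.orthogonalProjectionOnto x ∈ B i) :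
    (⨅ (v : E) (_ : ‖v‖ = 1) (_ : ⟪v, e⟫ = 0),
      volume ((fun x => (ℝ ∙ v)ᗮ.orthogonalProjectionOnto x) '' K)) / 2
      ≤ ∑ i, volume (B i) := by
  set A := ⨅ (v : E) (_ : ‖v‖ = 1) (_ : ⟪v, e⟫ = 0),
      volume ((fun x => (ℝ ∙ v)ᗮ.orthogonalProjectionOnto x) '' K) with hA
  choose n hn hne hnu using fun i => exists_unit_orth hdim e (u i)
  have hu0 : ∀ i, u i ≠ 0 := fun i => norm_ne_zero_iff.1 (by simp [hu])
  have heu : ∀ i, ⟪e, u i⟫ = 0 := fun i => by rw [real_inner_comm]; exact hue i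
  have he0 : e ≠ 0 := norm_ne_zero_iff.1 (by simp [he])
  obtain ⟨a, b, hab, himg, -⟩ := level_range hK hc hint he0
  have hAn : ∀ f : E, ‖f‖ = 1 → ⟪e, f⟫ = 0 → A ≤ volume (pr e f '' K) := by
    intro f hf hef
    obtain ⟨v, hv, hev, hfv⟩ := exists_unit_orth hdim e f
    rw [← proj_area hdim (norm_ne_zero_iff.1 (by simp [hv])) he hf hef hev hfv K]
    exact iInf₂_le_of_le v hv (iInf_le_of_le (by rw [real_inner_comm]; exact hev) le_rfl)
  suffices A / 2 ≤ ∑ i, (fun _ => (1 : ℝ≥0∞)) i * volume (B i) by simpa using this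
  refine le_of_open_approx _ (fun _ => ENNReal.one_ne_top) _ fun δ hδ => ?_
  choose U hUo hUv hUx using fun i =>
    open_base hdim (hu0 i) he (hn i) (hne i) (heu i) (by rw [real_inner_comm]; exact hnu i) (B i) hδ
  refine le_trans (integrate_slices hab U (fun i => (hUo i).measurableSet) (fun _ => 1) A ?_)
    (Finset.sum_le_sum fun i _ => by gcongr; exact hUv i)
  intro t ht
  set P : Submodule ℝ E := (ℝ ∙ e)ᗮ with hP
  set S := K ∩ {x | ⟪e, x⟫ = t} with hSdef
  have hlev : IsClosed {x : E | ⟪e, x⟫ = t} :=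
    isClosed_eq (continuous_const.inner continuous_id) continuous_const
  have hSne : S.Nonempty := by
    rw [← himg] at ht
    obtain ⟨x, hx, hxt⟩ := ht
    exact ⟨x, hx, hxt⟩
  have hSc : Convex ℝ S := hc.inter (convex_hyperplane (innerSL ℝ e).toLinearMap.isLinear t)
  set Ct := P.orthogonalProjectionOnto '' S with hCt
  have hCtK : IsCompact Ct :=
    (hK.inter_right hlev).image P.orthogonalProjectionOnto.continuous
  have hCtc : Convex ℝ Ct := hSc.linear_image P.orthogonalProjectionOnto.toLinearMap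
  have hin : ∀ (f : P) (x : E), ⟪f, P.orthogonalProjectionOnto x⟫ = ⟪(f : E), x⟫ := fun f x =>
    Submodule.inner_orthogonalProjectionOnto_eq_of_mem_left _ _
  set W := tent a b t * A.toReal with hW
  have hwide : WideAtLeast Ct W := by
    intro f
    rcases eq_or_ne f 0 with rfl | hf0
    · obtain ⟨x, hx⟩ := hSne.image P.orthogonalProjectionOnto
      exact ⟨x, hx, x, hx, by simp⟩
    set g : E := ‖f‖⁻¹ • (f : E) with hg
    have hfn : 0 < ‖f‖ := norm_pos_iff.2 hf0
    have hg1 : ‖g‖ = 1 := by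
      rw [hg, norm_smul, norm_inv, norm_norm, Submodule.coe_norm]
      exact inv_mul_cancel₀ (by simpa using hf0)
    have hge : ⟪e, g⟫ = 0 := by
      rw [hg, inner_smul_right, Submodule.mem_orthogonal_singleton_iff_inner_right.1 f.2, mul_zero]
    have hCk : IsCompact (pr e g '' K) := hK.image (pr e g).continuous
    have hlb := fibre_ge_tent hCk (hc.linear_image (pr e g).toLinearMap) hab
      (by rw [fst_pr]; exact himg) ht
    have hfk := fibre_compact hCk t
    have hfne : (fibre (pr e g '' K) t).Nonempty := by rw [fibre_pr]; exact hSne.image _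
    have hI := fibre_eq_Icc hfk (fibre_convex (hc.linear_image (pr e g).toLinearMap) t) hfne
    obtain ⟨x, hx, hxs⟩ : sSup (fibre (pr e g '' K) t) ∈ (fun x => ⟪g, x⟫) '' S := by
      rw [← fibre_pr]; exact hfk.sSup_mem hfne
    obtain ⟨y, hy, hys⟩ : sInf (fibre (pr e g '' K) t) ∈ (fun x => ⟪g, x⟫) '' S := by
      rw [← fibre_pr]; exact hfk.sInf_mem hfne
    rw [congrArg volume hI, Real.volume_Icc] at hlb
    have hAt : A ≠ ⊤ := ne_top_of_le_ne_top hCk.measure_ne_top (hAn g hg1 hge)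
    have h2 : ENNReal.ofReal W ≤ ENNReal.ofReal
        (sSup (fibre (pr e g '' K) t) - sInf (fibre (pr e g '' K) t)) := by
      refine le_trans ?_ hlb
      rw [hW, ENNReal.ofReal_mul (tent_nonneg ht), ENNReal.ofReal_toReal hAt]
      gcongr
      exact hAn g hg1 hge
    rw [ENNReal.ofReal_le_ofReal_iff
      (by linarith [le_csSup hfk.bddAbove (hfk.sInf_mem hfne)]), ← hxs, ← hys] at h2
    refine ⟨_, mem_image_of_mem _ hx, _, mem_image_of_mem _ hy, ?_⟩
    rw [hin, hin]
    have h3 := mul_le_mul_of_nonneg_right h2 hfn.le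
    simp only [hg, real_inner_smul_left] at h3
    calc W * ‖f‖ ≤ _ := h3
      _ = _ := by field_simp
  have hnP : ∀ i, n i ∈ P := fun i =>
    Submodule.mem_orthogonal_singleton_iff_inner_right.2 (hne i)
  have key := width_le_open_cover hCtK hCtc hwide (fun i => (⟨n i, hnP i⟩ : P))
    (fun i => by rw [Submodule.coe_norm]; exact hn i) (fun i => fibre (U i) t)
    (fun i => (hUo i).preimage (Continuous.prodMk_right t)) (by
      rintro _ ⟨x, ⟨hxK, hxt⟩, rfl⟩
      obtain ⟨i, hi⟩ := hcov x hxK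
      refine ⟨i, ?_⟩
      have := hUx i x hi
      rw [pr_apply, show ⟪e, x⟫ = t from hxt] at this
      rw [hin]
      exact this)
  have hAt : A ≠ ⊤ := by
    obtain ⟨g, hg, heg, -⟩ := exists_unit_orth hdim e e
    exact ne_top_of_le_ne_top (hK.image (pr e g).continuous).measure_ne_top (hAn g hg heg)
  rw [hW, ENNReal.ofReal_mul (tent_nonneg ht), ENNReal.ofReal_toReal hAt] at key
  simpa using key

/-- Two non-parallel directions. -/
lemma two_directions_aux (hdim : Module.finrank ℝ E = 3) {K : Set E} (hK : IsCompact K)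
    (hc : Convex ℝ K) (hint : (interior K).Nonempty) {ι : Type*} [Fintype ι] (a b : E)
    (ha : ‖a‖ = 1) (hb : ‖b‖ = 1) (hab : ⟪a, b⟫ ^ 2 ≠ 1) (u : ι → E)
    (hu : ∀ i, u i = a ∨ u i = -a ∨ u i = b ∨ u i = -b) (B : ∀ i, Set ↥((ℝ ∙ u i)ᗮ))
    (hcov : ∀ x ∈ K, ∃ i, (ℝ ∙ u i)ᗮ.orthogonalProjectionOnto x ∈ B i) :
    ENNReal.ofReal (1/2) ≤ ∑ i, volume (B i) /
      volume ((fun x => (ℝ ∙ u i)ᗮ.orthogonalProjectionOnto x) '' K) := by
  classical
  obtain ⟨e, he, hea, heb⟩ := exists_unit_orth hdim a b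
  rw [real_inner_comm] at hea heb
  obtain ⟨nA, hnA, henA, haA⟩ := exists_unit_orth hdim e a
  obtain ⟨nB, hnB, henB, hbB⟩ := exists_unit_orth hdim e b
  rw [real_inner_comm] at haA hbB
  have he0 : e ≠ 0 := norm_ne_zero_iff.1 (by simp [he])
  -- the transversality of the two normals
  have htr : ∀ {p q n : E}, ‖p‖ = 1 → ⟪p, q⟫ ^ 2 ≠ 1 → ‖q‖ = 1 → ‖n‖ = 1 → ⟪e, n⟫ = 0 →
      ⟪n, p⟫ = 0 → ⟪e, p⟫ = 0 → ⟪e, q⟫ = 0 → ⟪n, q⟫ ≠ 0 := by
    intro p q n hp hpq hq hn hen hnp hep heq hnq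
    have hon : Orthonormal ℝ ![e, n, p] := by
      constructor
      · intro i; fin_cases i <;> simp [he, hn, hp]
      · intro i j hij
        fin_cases i <;> fin_cases j <;>
          first | (exact absurd rfl hij) |
            simp [hen, hep, hnp, real_inner_comm e n, real_inner_comm e p, real_inner_comm n p]
    let bs : OrthonormalBasis (Fin 3) ℝ E := OrthonormalBasis.mk hon
      (by rw [hon.linearIndependent.span_eq_top_of_card_eq_finrank (by simp [hdim])])
    have h := bs.sum_inner_mul_inner q q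
    simp only [bs, OrthonormalBasis.coe_mk, Fin.sum_univ_three, Matrix.cons_val_zero,
      Matrix.cons_val_one, Matrix.cons_val_two, Matrix.head_cons, Matrix.tail_cons,
      real_inner_comm e q, real_inner_comm n q, real_inner_comm p q, heq, hnq,
      real_inner_self_eq_norm_sq, hq] at h
    apply hpq
    linarith
  have hAb : ⟪nA, b⟫ ≠ 0 := htr ha hab hb hnA henA haA hea heb
  have hBa : ⟪nB, a⟫ ≠ 0 := htr hb (by rwa [real_inner_comm]) ha hnB henB hbB heb hea
  let inA : ι → Prop := fun i => u i = a ∨ u i = -a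
  set n : ι → E := fun i => if inA i then nA else nB with hndef
  have hn : ∀ i, ‖n i‖ = 1 := fun i => by simp only [n]; split_ifs <;> assumption
  have hne : ∀ i, ⟪e, n i⟫ = 0 := fun i => by simp only [n]; split_ifs <;> assumption
  have hu1 : ∀ i, ‖u i‖ = 1 := fun i => by
    rcases hu i with h | h | h | h <;> simp [h, ha, hb]
  have hu0 : ∀ i, u i ≠ 0 := fun i => norm_ne_zero_iff.1 (by simp [hu1])
  have heu : ∀ i, ⟪e, u i⟫ = 0 := fun i => by
    rcases hu i with h | h | h | h <;> simp [h, hea, heb]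
  have hnu : ∀ i, ⟪n i, u i⟫ = 0 := fun i => by
    simp only [n]
    split_ifs with hi
    · rcases hi with h | h <;> simp [h, haA]
    · rcases hu i with h | h | h | h
      · exact absurd (Or.inl h) hi
      · exact absurd (Or.inr h) hi
      · simp [h, hbB]
      · simp [h, hbB]
  simp_rw [fun i => proj_area hdim (hu0 i) he (hn i) (hne i) (heu i) (hnu i) K,
    ENNReal.div_eq_inv_mul]
  set c : ι → ℝ≥0∞ := fun i => (volume (pr e (n i) '' K))⁻¹ with hcdef
  refine le_of_open_approx c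
    (fun i => ENNReal.inv_ne_top.2 (area_ne_zero he (hn i) (hne i) hint)) _ fun δ hδ => ?_
  choose U hUo hUv hUx using fun i =>
    open_base hdim (hu0 i) he (hn i) (hne i) (heu i) (hnu i) (B i) hδ
  obtain ⟨t0, t1, ht01, himg, hlev⟩ := level_range hK hc hint he0
  refine le_trans ?_ (Finset.sum_le_sum fun i _ => mul_le_mul' le_rfl (hUv i))
  refine le_trans (le_of_eq ?_)
    (integrate_slices ht01 U (fun i => (hUo i).measurableSet) c 1 ?_)
  · norm_num [ENNReal.ofReal_div_of_pos]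
  intro t ht
  rw [mul_one]
  rcases eq_or_lt_of_le ht.1 with h0 | h0
  · simp [tent, ← h0, ht01.le]
  rcases eq_or_lt_of_le ht.2 with h1 | h1
  · simp [tent, h1, ht01.le]
  obtain ⟨x0, hx0, hx0t⟩ := hlev t ⟨h0, h1⟩
  set τ := ENNReal.ofReal (tent t0 t1 t) with hτ
  have hτ0 : τ ≠ 0 := by
    rw [hτ, Ne, ENNReal.ofReal_eq_zero, not_le, tent]
    exact div_pos (mul_pos two_pos (lt_min (by linarith) (by linarith)))
      (pow_pos (by linarith) 2)
  set S := K ∩ {x | ⟪e, x⟫ = t} with hSdef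
  have hSc : Convex ℝ S := hc.inter (convex_hyperplane (innerSL ℝ e).toLinearMap.isLinear t)
  set Ct := pr nA nB '' S with hCt
  have hCti : (interior Ct).Nonempty := by
    refine ⟨pr nA nB x0, ?_⟩
    let w : ℝ × ℝ → E := fun z => x0 + ((z.1 - ⟪nA, x0⟫) / ⟪nA, b⟫) • b
      + ((z.2 - ⟪nB, x0⟫) / ⟪nB, a⟫) • a
    have hw : Continuous w := by fun_prop
    refine mem_interior.2 ⟨w ⁻¹' interior K, fun z hz => ⟨w z, ⟨interior_subset hz, ?_⟩, ?_⟩,
      isOpen_interior.preimage hw, by simpa [w] using hx0⟩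
    · simp [w, inner_add_right, inner_smul_right, hea, heb, hx0t]
    · ext <;> simp [w, inner_add_right, inner_smul_right, haA, hbB, hAb, hBa]
  have hfA : Prod.fst '' Ct = fibre (pr e nA '' K) t := by
    rw [hCt, image_image, fibre_pr]; rfl
  have hfB : Prod.snd '' Ct = fibre (pr e nB '' K) t := by
    rw [hCt, image_image, fibre_pr]; rfl
  have hCA := hK.image (pr e nA).continuous
  have hCB := hK.image (pr e nB).continuous
  have hcA := hc.linear_image (pr e nA).toLinearMap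
  have hcB := hc.linear_image (pr e nB).toLinearMap
  have hSne : S.Nonempty := ⟨x0, interior_subset hx0, hx0t⟩
  have hIA := fibre_eq_Icc (fibre_compact hCA t) (fibre_convex hcA t)
    (by rw [fibre_pr]; exact hSne.image _)
  have hIB := fibre_eq_Icc (fibre_compact hCB t) (fibre_convex hcB t)
    (by rw [fibre_pr]; exact hSne.image _)
  set X := ⋃ i ∈ Finset.univ.filter inA, fibre (U i) t with hX
  set Y := ⋃ i ∈ Finset.univ.filter (fun i => ¬ inA i), fibre (U i) t with hY
  have ho : ∀ i, IsOpen (fibre (U i) t) := fun i =>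
    (hUo i).preimage (Continuous.prodMk_right t)
  have key := two_plank_families (hSc.linear_image (pr nA nB).toLinearMap) hCti
    (hfA.trans hIA) (hfB.trans hIB) (X := X) (Y := Y)
    (isOpen_biUnion fun i _ => ho i).measurableSet (isOpen_biUnion fun i _ => ho i).measurableSet
    (by
      rintro _ ⟨x, ⟨hxK, hxt⟩, rfl⟩
      obtain ⟨i, hi⟩ := hcov x hxK
      have := hUx i x hi
      rw [pr_apply, show ⟪e, x⟫ = t from hxt] at this
      by_cases hA : inA i
      · refine Or.inl (mem_biUnion (by simpa using hA) ?_)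
        simpa [fibre, n, hA] using this
      · refine Or.inr (mem_biUnion (by simpa using hA) ?_)
        simpa [fibre, n, hA] using this)
  rw [← Real.volume_Icc, ← Real.volume_Icc, ← hIA, ← hIB] at key
  have step : ∀ (m : E), ‖m‖ = 1 → ⟪e, m⟫ = 0 → ∀ (Z : Set ℝ),
      τ * (volume Z / volume (fibre (pr e m '' K) t)) ≤ (volume (pr e m '' K))⁻¹ * volume Z := by
    intro m hm hem Z
    have hlb := fibre_ge_tent (hK.image (pr e m).continuous)
      (hc.linear_image (pr e m).toLinearMap) ht01 (by rw [fst_pr]; exact himg) ht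
    calc τ * (volume Z / volume (fibre (pr e m '' K) t))
        ≤ τ * (volume Z / (τ * volume (pr e m '' K))) := by gcongr
      _ = volume Z / volume (pr e m '' K) := by
          rw [← mul_div_assoc, ENNReal.mul_div_mul_left _ _ hτ0 ENNReal.ofReal_ne_top]
      _ = _ := ENNReal.div_eq_inv_mul ..
  calc τ = τ * 1 := (mul_one τ).symm
    _ ≤ τ * _ := mul_le_mul' le_rfl key
    _ ≤ (volume (pr e nA '' K))⁻¹ * volume X + (volume (pr e nB '' K))⁻¹ * volume Y := by
        rw [mul_add]; exact add_le_add (step nA hnA henA X) (step nB hnB henB Y)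
    _ ≤ (volume (pr e nA '' K))⁻¹ * ∑ i ∈ Finset.univ.filter inA, volume (fibre (U i) t)
        + (volume (pr e nB '' K))⁻¹
          * ∑ i ∈ Finset.univ.filter (fun i => ¬ inA i), volume (fibre (U i) t) := by
        gcongr <;> exact measure_biUnion_finset_le _ _
    _ = _ := by
        rw [← Finset.sum_filter_add_sum_filter_not Finset.univ inA, Finset.mul_sum, Finset.mul_sum]
        congr 1 <;> refine Finset.sum_congr rfl fun i hi => ?_ <;>
          simp only [Finset.mem_filter] at hi <;> simp [c, n, hi.2]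

/-- Coverings in at most two directions: the relative areas sum to at least one half. -/
theorem two_directions (hdim : Module.finrank ℝ E = 3) {K : Set E} (hK : IsCompact K)
    (hc : Convex ℝ K) (hint : (interior K).Nonempty) {ι : Type*} [Fintype ι] (a b : E)
    (ha : ‖a‖ = 1) (hb : ‖b‖ = 1) (u : ι → E)
    (hu : ∀ i, u i = a ∨ u i = -a ∨ u i = b ∨ u i = -b) (B : ∀ i, Set ↥((ℝ ∙ u i)ᗮ))
    (hcov : ∀ x ∈ K, ∃ i, (ℝ ∙ u i)ᗮ.orthogonalProjectionOnto x ∈ B i) :
    ENNReal.ofReal (1/2) ≤ ∑ i, volume (B i) /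
      volume ((fun x => (ℝ ∙ u i)ᗮ.orthogonalProjectionOnto x) '' K) := by
  by_cases hab : ⟪a, b⟫ ^ 2 = 1
  · obtain ⟨c, hc', hca, -⟩ := exists_unit_orth hdim a a
    refine two_directions_aux hdim hK hc hint a c ha hc' (by simp [hca]) u (fun i => ?_) B hcov
    have hcase : b = a ∨ b = -a := by
      rcases eq_or_eq_neg_of_sq_eq_sq _ _ (hab.trans (one_pow 2).symm) with h | h
      · exact Or.inl ((inner_eq_one_iff_of_norm_eq_one (𝕜 := ℝ) ha hb).1 h).symm
      · refine Or.inr (neg_eq_iff_eq_neg.1 ?_)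
        exact ((inner_eq_one_iff_of_norm_eq_one (𝕜 := ℝ) ha (by simpa using hb)).1
          (by rw [inner_neg_right, h]; norm_num)).symm
    rcases hcase with rfl | rfl <;> rcases hu i with h | h | h | h <;> simp_all
  · exact two_directions_aux hdim hK hc hint a b ha hb hab u hu B hcov

end Vale.Agent.P243
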